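import Vale.Agent.P231.Bd3.B5
import Mathlib.GroupTheory.CosetCover

/-! P231: for cut multiplicity one the projections `P u` come from an orthogonal complex structure,
and two orthogonal complex structures in the same dimension are conjugate (linear algebra). -/

set_option maxSynthPendingDepth 3
set_option linter.unusedSectionVars false

open Module Set
open scoped ComplexConjugate

namespace Vale.Agent.P231.H512

noncomputable section

open Vale.Agent.P231

section quad

variable {V : Type*} [AddCommGroup V] [Module ℝ V]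

/-- if the product of two quadratic forms vanishes, one of them vanishes -/
theorem quad_mul_zero (a b : V →ₗ[ℝ] V →ₗ[ℝ] ℝ) (h : ∀ u, a u u * b u u = 0) :
    (∀ u, a u u = 0) ∨ (∀ u, b u u = 0) := by
  by_contra hcon
  push Not at hcon
  obtain ⟨⟨u, hu⟩, ⟨w, hw⟩⟩ := hcon
  have hbu : b u u = 0 := (mul_eq_zero.1 (h u)).resolve_left hu
  have haw : a w w = 0 := (mul_eq_zero.1 (h w)).resolve_right hw
  let p : Polynomial ℝ := Polynomial.C (a u u) + Polynomial.C (a u w + a w u) * Polynomial.X
  let q : Polynomial ℝ := Polynomial.C (b u w + b w u) * Polynomial.X +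
    Polynomial.C (b w w) * Polynomial.X ^ 2
  have hpq : p * q = 0 := by
    apply Polynomial.funext
    intro t
    have h1 := h (u + t • w)
    simp only [map_add, map_smul, LinearMap.add_apply, LinearMap.smul_apply, smul_eq_mul, hbu,
      haw] at h1
    simp only [p, q, Polynomial.eval_mul, Polynomial.eval_add, Polynomial.eval_C,
      Polynomial.eval_X, Polynomial.eval_pow, Polynomial.eval_zero]
    linear_combination h1
  rcases mul_eq_zero.1 hpq with h1 | h1
  · have h2 := congrArg (fun r => Polynomial.coeff r 0) h1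
    simp [p] at h2
    exact hu h2
  · have h2 := congrArg (fun r => Polynomial.coeff r 2) h1
    simp [q] at h2
    exact hw h2

end quad

section alg

variable {V : Type*} [NormedAddCommGroup V] [InnerProductSpace ℝ V]
  {P : V → V →ₗ[ℝ] V} {B : V →ₗ[ℝ] V →ₗ[ℝ] V →ₗ[ℝ] V →ₗ[ℝ] ℝ}

/-- the form `‖u‖² ⟨P u w, P u w'⟩` as a bilinear map in `u` -/
def TT (B : V →ₗ[ℝ] V →ₗ[ℝ] V →ₗ[ℝ] V →ₗ[ℝ] ℝ) (w w' : V) : V →ₗ[ℝ] V →ₗ[ℝ] ℝ :=
  LinearMap.mk₂ ℝ (fun u u' => (B u u' w w' - inner ℝ u u' * inner ℝ w w' +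
      inner ℝ u w * inner ℝ u' w') / 3)
    (fun a b c => by simp only [map_add, LinearMap.add_apply, inner_add_left]; ring)
    (fun c a b => by
      simp only [map_smul, LinearMap.smul_apply, inner_smul_left, smul_eq_mul,
        RCLike.conj_to_real]
      ring)
    (fun a b c => by
      simp only [map_add, LinearMap.add_apply, inner_add_left, inner_add_right]
      ring)
    (fun c a b => by
      simp only [map_smul, LinearMap.smul_apply, inner_smul_left, inner_smul_right, smul_eq_mul,
        RCLike.conj_to_real]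
      ring)

theorem TT_apply (w w' u u' : V) : TT B w w' u u' = (B u u' w w' - inner ℝ u u' * inner ℝ w w' +
      inner ℝ u w * inner ℝ u' w') / 3 := rfl

theorem TT_comm (h : QData P B) (w w' u : V) : TT B w w' u u = TT B w' w u u := by
  rw [TT_apply, TT_apply, h.sym2, real_inner_comm w w']
  ring

theorem TT_add (w w₁ w₂ u : V) : TT B w (w₁ + w₂) u u = TT B w w₁ u u + TT B w w₂ u u := by
  simp only [TT_apply, map_add, inner_add_right]
  ring

theorem TT_add_left (w₁ w₂ w u : V) : TT B (w₁ + w₂) w u u = TT B w₁ w u u + TT B w₂ w u u := by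
  simp only [TT_apply, map_add, LinearMap.add_apply, inner_add_right, inner_add_left]
  ring

theorem TT_smul_left (c : ℝ) (w w' u : V) : TT B (c • w) w' u u = c * TT B w w' u u := by
  simp only [TT_apply, map_smul, LinearMap.smul_apply, inner_smul_left, inner_smul_right,
    smul_eq_mul, RCLike.conj_to_real]
  ring

theorem TT_smul_right (c : ℝ) (w w' u : V) : TT B w (c • w') u u = c * TT B w w' u u := by
  simp only [TT_apply, map_smul, inner_smul_right, smul_eq_mul]
  ring

theorem TT_swap (h : QData P B) (w u : V) : TT B w w u u = TT B u u w w := by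
  rw [TT_apply, TT_apply, h.pair, real_inner_comm u w]
  ring

theorem TT_diag (h : QData P B) {u : V} (hu : ‖u‖ = 1) (w : V) :
    TT B w w u u = ‖P u w‖ ^ 2 := by
  have huu : inner ℝ u u = (1 : ℝ) := by rw [real_inner_self_eq_norm_sq, hu]; norm_num
  set a : ℝ := inner ℝ u w with ha
  set w' : V := w - a • u with hw'
  have hw : w = a • u + w' := by rw [hw']; abel
  have h0 : inner ℝ u w' = (0 : ℝ) := by
    rw [hw', inner_sub_right, inner_smul_right, huu, ← ha]
    ring
  have h1 := h.val u w' hu h0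
  have h2 : B u u w w = B u u w' w' := by
    rw [hw]
    simp only [map_add, map_smul, LinearMap.add_apply, LinearMap.smul_apply, h.gauss,
      h.sym2 u u w' u, smul_eq_mul]
    ring
  have h3 : P u w = P u w' := by
    rw [hw, map_add, map_smul, Alg_P_self h hu, smul_zero, zero_add]
  have h4 : inner ℝ w w = a ^ 2 + ‖w'‖ ^ 2 := by
    rw [hw, inner_add_left, inner_add_right, inner_add_right, inner_smul_left, inner_smul_right,
      inner_smul_left, inner_smul_right, huu, real_inner_comm u w', h0, real_inner_self_eq_norm_sq]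
    simp only [RCLike.conj_to_real]
    ring
  rw [TT_apply, huu, h4, h2, h1, h3, ← ha]
  ring

theorem TT_unit (h : QData P B) {u : V} (hu : ‖u‖ = 1) (w w' : V) :
    TT B w w' u u = inner ℝ (P u w) (P u w') := by
  have h1 := TT_diag h hu (w + w')
  rw [TT_add, TT_add_left, TT_add_left, TT_diag h hu w, TT_diag h hu w', TT_comm h w' w, map_add,
    norm_add_sq_real] at h1
  linarith

theorem TT_smul (c : ℝ) (w w' u : V) : TT B w w' (c • u) (c • u) = c ^ 2 * TT B w w' u u := by
  rw [map_smul, map_smul, LinearMap.smul_apply, smul_eq_mul, smul_eq_mul]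
  ring

/-- a projection of rank one -/
theorem exists_unit_of_rank (h : QData P B) {u : V} (hu : ‖u‖ = 1)
    (hr : finrank ℝ (LinearMap.range (P u)) = 1) :
    ∃ j : V, ‖j‖ = 1 ∧ ∀ w, P u w = (inner ℝ j w : ℝ) • j := by
  obtain ⟨⟨v, hv⟩, hv0, hv1⟩ := finrank_eq_one_iff'.1 hr
  have hv0' : v ≠ 0 := fun h0 => hv0 (Subtype.ext h0)
  have hn : 0 < ‖v‖ := norm_pos_iff.2 hv0'
  set j : V := ‖v‖⁻¹ • v with hj
  have hj1 : ‖j‖ = 1 := by
    rw [hj, norm_smul, norm_inv, norm_norm, inv_mul_cancel₀ hn.ne']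
  obtain ⟨z, hz⟩ := hv
  have hPv : P u v = v := by rw [← hz, h.idem u z hu]
  have hPj : P u j = j := by rw [hj, map_smul, hPv]
  refine ⟨j, hj1, fun w => ?_⟩
  obtain ⟨c, hc⟩ := hv1 ⟨P u w, LinearMap.mem_range_self _ _⟩
  have hc' : P u w = (c * ‖v‖) • j := by
    have h1 : c • v = P u w := congrArg Subtype.val hc
    rw [← h1, hj, smul_smul, mul_assoc, mul_inv_cancel₀ hn.ne', mul_one]
  have h2 : inner ℝ j (P u w) = (inner ℝ j w : ℝ) := by
    rw [← h.symm u j w hu, hPj]
  rw [hc', inner_smul_right, real_inner_self_eq_norm_sq, hj1] at h2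
  rw [hc', ← h2]
  congr 1
  ring

theorem exists_j (h : QData P B) (hr : ∀ u, ‖u‖ = 1 → finrank ℝ (LinearMap.range (P u)) = 1)
    (u : V) : ∃ j : V, ‖j‖ = ‖u‖ ∧ ∀ w w', TT B w w' u u = inner ℝ j w * inner ℝ j w' := by
  rcases eq_or_ne u 0 with rfl | hu0
  · exact ⟨0, rfl, fun w w' => by simp⟩
  · have hn : 0 < ‖u‖ := norm_pos_iff.2 hu0
    have h1 : ‖‖u‖⁻¹ • u‖ = 1 := by
      rw [norm_smul, norm_inv, norm_norm, inv_mul_cancel₀ hn.ne']
    obtain ⟨j, hj1, hj⟩ := exists_unit_of_rank h h1 (hr _ h1)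
    refine ⟨‖u‖ • j, by rw [norm_smul, hj1, norm_norm, mul_one], fun w w' => ?_⟩
    have h2 : u = ‖u‖ • (‖u‖⁻¹ • u) := by rw [smul_smul, mul_inv_cancel₀ hn.ne', one_smul]
    have h3 : TT B w w' u u = ‖u‖ ^ 2 * TT B w w' (‖u‖⁻¹ • u) (‖u‖⁻¹ • u) := by
      rw [← TT_smul, ← h2]
    rw [h3, TT_unit h h1, hj, hj, inner_smul_left, inner_smul_right, real_inner_self_eq_norm_sq,
      hj1, inner_smul_left, inner_smul_left]
    simp only [RCLike.conj_to_real]
    ring

/-- rank-one projections depending quadratically on `u` come from a linear map -/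
theorem exists_J_TT [FiniteDimensional ℝ V] (h : QData P B)
    (hr : ∀ u, ‖u‖ = 1 → finrank ℝ (LinearMap.range (P u)) = 1) :
    ∃ J : V →ₗ[ℝ] V, ∀ u w w', TT B w w' u u = inner ℝ (J u) w * inner ℝ (J u) w' := by
  classical
  choose j hjn hj using exists_j h hr
  have hsw : ∀ u w, (inner ℝ (j u) w : ℝ) ^ 2 = (inner ℝ (j w) u : ℝ) ^ 2 := by
    intro u w
    have h1 := TT_swap h w u
    rw [hj, hj] at h1
    linear_combination h1
  -- the dichotomy
  have hdich : ∀ w w', (∀ u, TT B w w' u u = inner ℝ (j w) u * inner ℝ (j w') u) ∨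
      (∀ u, TT B w w' u u = -(inner ℝ (j w) u * inner ℝ (j w') u)) := by
    intro w w'
    let q : V →ₗ[ℝ] V →ₗ[ℝ] ℝ := LinearMap.mk₂ ℝ
      (fun u u' => inner ℝ (j w) u * inner ℝ (j w') u')
      (fun a b c => by simp only [inner_add_right]; ring)
      (fun c a b => by simp only [inner_smul_right, smul_eq_mul]; ring)
      (fun a b c => by simp only [inner_add_right]; ring)
      (fun c a b => by simp only [inner_smul_right, smul_eq_mul]; ring)
    have hq : ∀ u, q u u = inner ℝ (j w) u * inner ℝ (j w') u := fun u => rfl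
    have h1 : ∀ u, (TT B w w' - q) u u * (TT B w w' + q) u u = 0 := by
      intro u
      simp only [LinearMap.sub_apply, LinearMap.add_apply, hq, hj]
      have h2 := hsw u w
      have h3 := hsw u w'
      linear_combination (inner ℝ (j u) w' : ℝ) ^ 2 * h2 + (inner ℝ (j w) u : ℝ) ^ 2 * h3
    rcases quad_mul_zero _ _ h1 with h2 | h2
    · left
      intro u
      have := h2 u
      simp only [LinearMap.sub_apply, hq] at this
      linarith
    · right
      intro u
      have := h2 u
      simp only [LinearMap.add_apply, hq] at this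
      linarith
  -- a generic point
  set b := stdOrthonormalBasis ℝ V with hb
  obtain ⟨u₀, hu₀⟩ : ∃ u₀ : V, ∀ i, (inner ℝ (j (b i)) u₀ : ℝ) ≠ 0 := by
    by_contra hcon
    push Not at hcon
    have h1 : ⋃ i, ((LinearMap.ker (innerₛₗ ℝ (j (b i))) : Submodule ℝ V) : Set V) =
        Set.univ := by
      rw [Set.eq_univ_iff_forall]
      intro u
      obtain ⟨i, hi⟩ := hcon u
      exact Set.mem_iUnion.2 ⟨i, LinearMap.mem_ker.2 hi⟩
    obtain ⟨i, hi⟩ := Subspace.exists_eq_top_of_iUnion_eq_univ h1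
    have h2 : j (b i) ∈ (LinearMap.ker (innerₛₗ ℝ (j (b i))) : Submodule ℝ V) := by
      rw [hi]
      trivial
    have h3 : (inner ℝ (j (b i)) (j (b i)) : ℝ) = 0 := LinearMap.mem_ker.1 h2
    rw [real_inner_self_eq_norm_sq, hjn, b.norm_eq_one] at h3
    norm_num at h3
  let c : Fin (finrank ℝ V) → ℝ := fun i => inner ℝ (j u₀) (b i) / inner ℝ (j (b i)) u₀
  have hc : ∀ i, (inner ℝ (j u₀) (b i) : ℝ) = c i * inner ℝ (j (b i)) u₀ := fun i => by
    rw [div_mul_cancel₀ _ (hu₀ i)]
  have hc2 : ∀ i, c i ^ 2 = 1 := fun i => by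
    have h1 := hsw u₀ (b i)
    rw [hc i, mul_pow] at h1
    exact mul_right_cancel₀ (pow_ne_zero 2 (hu₀ i)) (h1.trans (one_mul _).symm)
  have hij : ∀ i k u, TT B (b i) (b k) u u =
      (c i * inner ℝ (j (b i)) u) * (c k * inner ℝ (j (b k)) u) := by
    intro i k u
    have h0 := hj u₀ (b i) (b k)
    rw [hc i, hc k] at h0
    have hne : (inner ℝ (j (b i)) u₀ : ℝ) * inner ℝ (j (b k)) u₀ ≠ 0 :=
      mul_ne_zero (hu₀ i) (hu₀ k)
    rcases hdich (b i) (b k) with h1 | h1
    · have h2 : c i * c k = 1 := by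
        have h3 := h1 u₀
        rw [h0] at h3
        apply mul_right_cancel₀ hne
        linear_combination h3
      rw [h1 u]
      linear_combination (-(inner ℝ (j (b i)) u * inner ℝ (j (b k)) u) : ℝ) * h2
    · have h2 : c i * c k = -1 := by
        have h3 := h1 u₀
        rw [h0] at h3
        apply mul_right_cancel₀ hne
        linear_combination h3
      rw [h1 u]
      linear_combination (-(inner ℝ (j (b i)) u * inner ℝ (j (b k)) u) : ℝ) * h2
  let J : V →ₗ[ℝ] V := ∑ i, (innerₛₗ ℝ (c i • j (b i))).smulRight (b i)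
  have hJ : ∀ u, J u = ∑ i, (c i * inner ℝ (j (b i)) u) • b i := by
    intro u
    simp only [J, LinearMap.sum_apply, LinearMap.smulRight_apply, innerₛₗ_apply_apply,
      inner_smul_left, RCLike.conj_to_real]
  have hJb : ∀ u i, (inner ℝ (J u) (b i) : ℝ) = c i * inner ℝ (j (b i)) u := by
    intro u i
    rw [hJ, sum_inner, Finset.sum_eq_single i]
    · rw [inner_smul_left, real_inner_self_eq_norm_sq, b.norm_eq_one]
      simp
    · intro k _ hk
      rw [inner_smul_left, b.orthonormal.2 hk, mul_zero]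
    · intro h1
      exact absurd (Finset.mem_univ i) h1
  refine ⟨J, fun u w w' => ?_⟩
  have hw : ∀ w : V, w = ∑ i, (inner ℝ (b i) w : ℝ) • b i := fun w => (b.sum_repr' w).symm
  let TL : V →ₗ[ℝ] V →ₗ[ℝ] ℝ := LinearMap.mk₂ ℝ (fun w w' => TT B w w' u u)
    (fun a a' b => TT_add_left a a' b u) (fun c a b => TT_smul_left c a b u)
    (fun a b b' => TT_add a b b' u) (fun c a b => TT_smul_right c a b u)
  let TR : V →ₗ[ℝ] V →ₗ[ℝ] ℝ := LinearMap.mk₂ ℝ
    (fun w w' => (inner ℝ (J u) w * inner ℝ (J u) w' : ℝ))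
      (fun a b c => by simp only [inner_add_right]; ring)
      (fun c a b => by simp only [inner_smul_right, smul_eq_mul]; ring)
      (fun a b c => by simp only [inner_add_right]; ring)
      (fun c a b => by simp only [inner_smul_right, smul_eq_mul]; ring)
  have h1 : TL = TR := by
    refine b.toBasis.ext fun i => b.toBasis.ext fun k => ?_
    rw [b.coe_toBasis]
    show TT B (b i) (b k) u u = inner ℝ (J u) (b i) * inner ℝ (J u) (b k)
    rw [hJb, hJb, hij]
  exact congrArg (fun T : V →ₗ[ℝ] V →ₗ[ℝ] ℝ => T w w') h1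

/-- an orthogonal complex structure -/
structure OCS (J : V →ₗ[ℝ] V) : Prop where
  sq : ∀ v, J (J v) = -v
  isom : ∀ v w, inner ℝ (J v) (J w) = (inner ℝ v w : ℝ)

/-- the complex structure -/
theorem exists_OCS [FiniteDimensional ℝ V] (h : QData P B)
    (hr : ∀ u, ‖u‖ = 1 → finrank ℝ (LinearMap.range (P u)) = 1) :
    ∃ J : V →ₗ[ℝ] V, OCS J ∧ ∀ u w, ‖u‖ = 1 → P u w = (inner ℝ (J u) w : ℝ) • J u := by
  obtain ⟨J, hJ⟩ := exists_J_TT h hr
  have hP : ∀ u w, ‖u‖ = 1 → P u w = (inner ℝ (J u) w : ℝ) • J u := by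
    intro u w hu
    refine ext_inner_right ℝ fun w' => ?_
    have h1 : inner ℝ (P u w) w' = (inner ℝ (P u w) (P u w') : ℝ) := by
      rw [← h.symm u (P u w) w' hu, h.idem u w hu]
    rw [h1, ← TT_unit h hu, hJ, inner_smul_left]
    simp
  have hn1 : ∀ u, ‖u‖ = 1 → ‖J u‖ = 1 := by
    intro u hu
    obtain ⟨j, hj1, hj⟩ := exists_unit_of_rank h hu (hr u hu)
    have h1 : ∀ w, (inner ℝ j w : ℝ) ^ 2 = inner ℝ (J u) w ^ 2 := by
      intro w
      have h2 := TT_unit h hu w w
      rw [hJ, hj, inner_smul_left, inner_smul_right, real_inner_self_eq_norm_sq, hj1] at h2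
      simp only [RCLike.conj_to_real] at h2
      linear_combination -h2
    have h2 := h1 j
    have h3 := h1 (J u)
    rw [real_inner_self_eq_norm_sq, hj1] at h2
    rw [real_inner_self_eq_norm_sq, real_inner_comm, ← h2] at h3
    have h4 : ‖J u‖ ^ 4 = 1 := by linear_combination -h3
    have h5 := norm_nonneg (J u)
    exact (pow_eq_one_iff_of_nonneg h5 (by norm_num)).1 h4
  have hn : ∀ u, ‖J u‖ = ‖u‖ := by
    intro u
    rcases eq_or_ne u 0 with rfl | hu0
    · simp
    · have hn : 0 < ‖u‖ := norm_pos_iff.2 hu0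
      have h1 : ‖‖u‖⁻¹ • u‖ = 1 := by
        rw [norm_smul, norm_inv, norm_norm, inv_mul_cancel₀ hn.ne']
      have h2 := hn1 _ h1
      rw [map_smul, norm_smul, norm_inv, norm_norm] at h2
      field_simp at h2
      exact h2
  have hisom : ∀ v w, inner ℝ (J v) (J w) = (inner ℝ v w : ℝ) := by
    intro v w
    rw [real_inner_eq_norm_add_mul_self_sub_norm_mul_self_sub_norm_mul_self_div_two,
      real_inner_eq_norm_add_mul_self_sub_norm_mul_self_sub_norm_mul_self_div_two, ← map_add, hn,
      hn, hn]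
  have hself : ∀ u, (inner ℝ (J u) u : ℝ) = 0 := by
    intro u
    have h1 := hJ u u u
    rw [TT_apply, h.gauss] at h1
    have h2 : (inner ℝ (J u) u : ℝ) * inner ℝ (J u) u = 0 := by
      rw [← h1]
      ring
    exact mul_self_eq_zero.1 h2
  have hskew : ∀ v w, (inner ℝ (J v) w : ℝ) = -inner ℝ v (J w) := by
    intro v w
    have h1 := hself (v + w)
    rw [map_add, inner_add_left, inner_add_right, inner_add_right, hself, hself] at h1
    rw [real_inner_comm (J w) v]
    linarith
  refine ⟨J, ⟨fun v => ?_, hisom⟩, hP⟩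
  refine ext_inner_right ℝ fun w => ?_
  rw [hskew, hisom, inner_neg_left]

end alg

end

end Vale.Agent.P231.H512
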