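import Vale.Agent.P231.H512.CAlg
import Mathlib.Analysis.InnerProductSpace.PiL2
import Mathlib.LinearAlgebra.Complex.FiniteDimensional

/-! Two orthogonal complex structures in the same dimension are conjugate by a linear isometry. -/

set_option maxSynthPendingDepth 3
set_option linter.unusedSectionVars false

open Module Set
open scoped ComplexConjugate

namespace Vale.Agent.P231.H512

noncomputable section

variable {V : Type*} [NormedAddCommGroup V] [InnerProductSpace ℝ V]

/-- `V` as a complex vector space by means of an orthogonal complex structure -/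
def CV {J : V →ₗ[ℝ] V} (_ : OCS J) : Type _ := V

variable {J : V →ₗ[ℝ] V} (h : OCS J)

instance : AddCommGroup (CV h) := inferInstanceAs (AddCommGroup V)
instance : Module ℝ (CV h) := inferInstanceAs (Module ℝ V)

/-- the identity -/
def tv : CV h ≃ₗ[ℝ] V := LinearEquiv.refl ℝ V

/-- the algebra homomorphism `ℂ → End V` -/
def cHom : ℂ →ₐ[ℝ] Module.End ℝ V :=
  Complex.lift ⟨J, by
    ext v
    simp [h.sq v]⟩

instance : Module ℂ (CV h) := Module.compHom V (cHom h).toRingHom

theorem CV_smul (z : ℂ) (v : CV h) : tv h (z • v) = z.re • tv h v + z.im • J (tv h v) := by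
  show (cHom h z) (tv h v) = _
  simp only [cHom, Complex.lift_apply, Complex.liftAux_apply]
  rfl

instance : IsScalarTower ℝ ℂ (CV h) := ⟨fun a z v => by
  apply (tv h).injective
  rw [CV_smul, map_smul, CV_smul, Complex.real_smul, Complex.re_ofReal_mul,
    Complex.im_ofReal_mul, smul_add, smul_smul, smul_smul]⟩

theorem OCS.skew {J : V →ₗ[ℝ] V} (h : OCS J) (v w : V) :
    (inner ℝ (J v) w : ℝ) = -inner ℝ v (J w) := by
  have h1 := h.isom v (J w)
  rw [h.sq, inner_neg_right] at h1
  linarith

/-- the hermitian inner product -/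
@[reducible]
def cvCore : InnerProductSpace.Core ℂ (CV h) where
  inner v w := ⟨inner ℝ (tv h v) (tv h w), -inner ℝ (tv h v) (J (tv h w))⟩
  conj_inner_symm v w := by
    apply Complex.ext
    · exact real_inner_comm (tv h v) (tv h w)
    · show -(-inner ℝ (tv h w) (J (tv h v))) = -(inner ℝ (tv h v) (J (tv h w)) : ℝ)
      rw [real_inner_comm, h.skew]
      ring
  re_inner_nonneg v := by
    show 0 ≤ (inner ℝ (tv h v) (tv h v) : ℝ)
    exact real_inner_self_nonneg
  add_left u v w := by
    apply Complex.ext
    · exact inner_add_left (tv h u) (tv h v) (tv h w)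
    · show -(inner ℝ (tv h u + tv h v) (J (tv h w)) : ℝ) = _
      rw [inner_add_left]
      show _ = -(inner ℝ (tv h u) (J (tv h w)) : ℝ) + -(inner ℝ (tv h v) (J (tv h w)) : ℝ)
      ring
  smul_left v w z := by
    apply Complex.ext
    · show (inner ℝ (tv h (z • v)) (tv h w) : ℝ) =
        (conj z * ⟨inner ℝ (tv h v) (tv h w), -inner ℝ (tv h v) (J (tv h w))⟩ : ℂ).re
      rw [CV_smul, inner_add_left, inner_smul_left, inner_smul_left, h.skew, Complex.mul_re,
        Complex.conj_re, Complex.conj_im]
      simp only [RCLike.conj_to_real]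
      ring
    · show -(inner ℝ (tv h (z • v)) (J (tv h w)) : ℝ) =
        (conj z * ⟨inner ℝ (tv h v) (tv h w), -inner ℝ (tv h v) (J (tv h w))⟩ : ℂ).im
      rw [CV_smul, inner_add_left, inner_smul_left, inner_smul_left, h.isom, Complex.mul_im,
        Complex.conj_re, Complex.conj_im]
      simp only [RCLike.conj_to_real]
      ring
  definite v hv := by
    have h1 : (inner ℝ (tv h v) (tv h v) : ℝ) = 0 := congrArg Complex.re hv
    exact (tv h).injective ((inner_self_eq_zero.1 h1).trans (map_zero (tv h)).symm)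

instance : NormedAddCommGroup (CV h) :=
  @InnerProductSpace.Core.toNormedAddCommGroup ℂ (CV h) _ _ _ (cvCore h)

instance : InnerProductSpace ℂ (CV h) := InnerProductSpace.ofCore (cvCore h).toCore

theorem cv_inner (v w : CV h) :
    inner ℂ v w = ⟨inner ℝ (tv h v) (tv h w), -inner ℝ (tv h v) (J (tv h w))⟩ := rfl

instance [FiniteDimensional ℝ V] : FiniteDimensional ℝ (CV h) :=
  inferInstanceAs (FiniteDimensional ℝ V)

instance [FiniteDimensional ℝ V] : FiniteDimensional ℂ (CV h) :=
  Module.Finite.of_restrictScalars_finite ℝ ℂ (CV h)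

theorem cv_finrank [FiniteDimensional ℝ V] : 2 * finrank ℂ (CV h) = finrank ℝ V := by
  have h1 := Module.finrank_mul_finrank ℝ ℂ (CV h)
  rw [Complex.finrank_real_complex] at h1
  exact h1

/-- two orthogonal complex structures in the same dimension are conjugate -/
theorem exists_conj [FiniteDimensional ℝ V] {V' : Type*} [NormedAddCommGroup V']
    [InnerProductSpace ℝ V'] [FiniteDimensional ℝ V'] {J' : V' →ₗ[ℝ] V'} (h : OCS J)
    (h' : OCS J') (hd : finrank ℝ V = finrank ℝ V') :
    ∃ L : V ≃ₗ[ℝ] V', (∀ v w, inner ℝ (L v) (L w) = (inner ℝ v w : ℝ)) ∧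
      ∀ v, L (J v) = J' (L v) := by
  have hc : finrank ℂ (CV h) = finrank ℂ (CV h') := by
    have h1 := cv_finrank h
    have h2 := cv_finrank h'
    omega
  let T : CV h ≃ₗᵢ[ℂ] CV h' := (stdOrthonormalBasis ℂ (CV h)).equiv
    (stdOrthonormalBasis ℂ (CV h')) (finCongr hc)
  let L : V ≃ₗ[ℝ] V' := ((tv h).symm.trans (T.toLinearEquiv.restrictScalars ℝ)).trans (tv h')
  have hL : ∀ v, L v = tv h' (T ((tv h).symm v)) := fun v => rfl
  refine ⟨L, fun v w => ?_, fun v => ?_⟩
  · have h1 := T.inner_map_map ((tv h).symm v) ((tv h).symm w)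
    rw [cv_inner, cv_inner] at h1
    exact congrArg Complex.re h1
  · have h1 : (tv h).symm (J v) = Complex.I • (tv h).symm v := by
      apply (tv h).injective
      rw [CV_smul]
      simp
    rw [hL, h1, map_smul, CV_smul, hL]
    simp

end

end Vale.Agent.P231.H512
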