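import Mathlib.Analysis.InnerProductSpace.Calculus
import Mathlib.Analysis.Calculus.MeanValue
import Mathlib.Analysis.SpecialFunctions.Trigonometric.Inverse
import Mathlib.Analysis.SpecialFunctions.Trigonometric.Bounds
import Mathlib.Analysis.Complex.Basic

/-! The Fubini-Study distance of unit vectors: triangle inequality, metric derivative, and a
Lipschitz criterion. -/

set_option maxSynthPendingDepth 3
set_option linter.unusedSectionVars false

open Set Filter
open scoped Topology ComplexConjugate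

namespace Vale.Agent.P231.FS

noncomputable section

variable {H : Type*} [NormedAddCommGroup H] [InnerProductSpace ℂ H]

/-- the Fubini-Study distance of the lines spanned by two unit vectors (angle in `[0, π/2]`) -/
def fs (z w : H) : ℝ := Real.arccos ‖(inner ℂ z w : ℂ)‖

theorem fs_comm (z w : H) : fs z w = fs w z := by
  unfold fs
  rw [norm_inner_symm]

theorem fs_nonneg (z w : H) : 0 ≤ fs z w := Real.arccos_nonneg _

theorem fs_le (z w : H) : fs z w ≤ Real.pi / 2 := by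
  unfold fs
  rw [Real.arccos_le_pi_div_two]
  exact norm_nonneg _

theorem norm_inner_le_one {z w : H} (hz : ‖z‖ = 1) (hw : ‖w‖ = 1) :
    ‖(inner ℂ z w : ℂ)‖ ≤ 1 := by
  have := norm_inner_le_norm (𝕜 := ℂ) z w
  rwa [hz, hw, one_mul] at this

theorem cos_fs {z w : H} (hz : ‖z‖ = 1) (hw : ‖w‖ = 1) :
    Real.cos (fs z w) = ‖(inner ℂ z w : ℂ)‖ :=
  Real.cos_arccos (by linarith [norm_nonneg (inner ℂ z w : ℂ)]) (norm_inner_le_one hz hw)

/-- the projection orthogonal to the line of `z` -/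
def Qp (z w : H) : H := w - (inner ℂ z w : ℂ) • z

theorem Qp_self {z : H} (hz : ‖z‖ = 1) : Qp z z = 0 := by
  unfold Qp
  rw [inner_self_eq_norm_sq_to_K, hz]
  simp

theorem Qp_sub (z w w' : H) : Qp z (w - w') = Qp z w - Qp z w' := by
  unfold Qp
  rw [inner_sub_right, sub_smul]
  abel

theorem Qp_smul (z w : H) (r : ℝ) : Qp z (r • w) = r • Qp z w := by
  unfold Qp
  rw [smul_sub, ← Complex.coe_smul, ← Complex.coe_smul, inner_smul_right, smul_smul]

theorem norm_Qp_sq {z : H} (hz : ‖z‖ = 1) (w : H) :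
    ‖Qp z w‖ ^ 2 = ‖w‖ ^ 2 - ‖(inner ℂ z w : ℂ)‖ ^ 2 := by
  have h1 : (inner ℂ z (Qp z w) : ℂ) = 0 := by
    unfold Qp
    rw [inner_sub_right, inner_smul_right, inner_self_eq_norm_sq_to_K, hz]
    simp
  have h2 : w = Qp z w + (inner ℂ z w : ℂ) • z := by
    unfold Qp
    abel
  have h3 : (inner ℂ (Qp z w) ((inner ℂ z w : ℂ) • z) : ℂ) = 0 := by
    rw [inner_smul_right, ← inner_conj_symm (Qp z w) z, h1]
    simp
  have h4 := norm_add_sq_eq_norm_sq_add_norm_sq_of_inner_eq_zero _ _ h3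
  rw [← h2, norm_smul, hz, mul_one] at h4
  nlinarith only [h4]

theorem sin_fs {z w : H} (hz : ‖z‖ = 1) (hw : ‖w‖ = 1) : Real.sin (fs z w) = ‖Qp z w‖ := by
  have h1 : Real.sin (fs z w) = √(1 - ‖(inner ℂ z w : ℂ)‖ ^ 2) := Real.sin_arccos _
  rw [h1]
  have h2 := norm_Qp_sq hz w
  rw [hw, one_pow] at h2
  rw [← h2, Real.sqrt_sq (norm_nonneg _)]

theorem fs_self {z : H} (hz : ‖z‖ = 1) : fs z z = 0 := by
  unfold fs
  rw [inner_self_eq_norm_sq_to_K, hz]
  simp

/-- the triangle inequality -/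
theorem fs_triangle {x y z : H} (hx : ‖x‖ = 1) (hy : ‖y‖ = 1) (hz : ‖z‖ = 1) :
    fs x z ≤ fs x y + fs y z := by
  have h1 : (inner ℂ x z : ℂ) = inner ℂ x y * inner ℂ y z + inner ℂ (Qp y x) (Qp y z) := by
    unfold Qp
    rw [inner_sub_left, inner_sub_right, inner_sub_right, inner_smul_left, inner_smul_left,
      inner_smul_right, inner_smul_right, inner_self_eq_norm_sq_to_K, hy, inner_conj_symm]
    simp
    ring
  have h2 : Real.cos (fs x y + fs y z) ≤ ‖(inner ℂ x z : ℂ)‖ := by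
    rw [Real.cos_add, cos_fs hx hy, cos_fs hy hz, fs_comm x y, sin_fs hy hx, sin_fs hy hz, h1]
    have h3 := norm_sub_le_norm_add (inner ℂ x y * inner ℂ y z : ℂ)
      (inner ℂ (Qp y x) (Qp y z) : ℂ)
    have h4 := norm_inner_le_norm (𝕜 := ℂ) (Qp y x) (Qp y z)
    rw [norm_mul] at h3
    linarith
  have h3 : 0 ≤ fs x y + fs y z := add_nonneg (fs_nonneg _ _) (fs_nonneg _ _)
  have h4 : fs x y + fs y z ≤ Real.pi := by
    have := fs_le x y
    have := fs_le y z
    linarith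
  calc fs x z = Real.arccos ‖(inner ℂ x z : ℂ)‖ := rfl
    _ ≤ Real.arccos (Real.cos (fs x y + fs y z)) := Real.arccos_le_arccos h2
    _ = fs x y + fs y z := Real.arccos_cos h3 h4

/-- multiplication by a phase does not change the distance -/
theorem fs_smul_left (z w : H) {c : ℂ} (hc : ‖c‖ = 1) : fs (c • z) w = fs z w := by
  unfold fs
  rw [inner_smul_left, norm_mul, RCLike.norm_conj, hc, one_mul]

theorem fs_smul_right (z w : H) {c : ℂ} (hc : ‖c‖ = 1) : fs z (c • w) = fs z w := by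
  rw [fs_comm, fs_smul_left _ _ hc, fs_comm]

theorem fs_eq_zero {z w : H} (hz : ‖z‖ = 1) (hw : ‖w‖ = 1) (h : fs z w = 0) :
    w = (inner ℂ z w : ℂ) • z ∧ ‖(inner ℂ z w : ℂ)‖ = 1 := by
  have h1 := sin_fs hz hw
  have h2 := cos_fs hz hw
  rw [h, Real.sin_zero] at h1
  rw [h, Real.cos_zero] at h2
  exact ⟨sub_eq_zero.1 (norm_eq_zero.1 h1.symm), h2.symm⟩

/-- the metric derivative -/
theorem tendsto_Qp {z : ℝ → H} {t : ℝ} {z' : H} (hzt : ‖z t‖ = 1) (hd : HasDerivAt z z' t) :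
    Tendsto (fun s => ‖Qp (z t) (z s)‖ / |s - t|) (𝓝[≠] t) (𝓝 ‖Qp (z t) z'‖) := by
  have hc : Continuous fun w : H => ‖Qp (z t) w‖ :=
    (continuous_id.sub ((continuous_const.inner continuous_id).smul continuous_const)).norm
  have h1 := (hc.tendsto z').comp (hasDerivAt_iff_tendsto_slope.1 hd)
  refine h1.congr' ?_
  filter_upwards [self_mem_nhdsWithin] with s hs
  have hs' : s - t ≠ 0 := sub_ne_zero.2 hs
  show ‖Qp (z t) (slope z t s)‖ = _
  rw [slope_def_module, Qp_smul, Qp_sub, Qp_self hzt, sub_zero, norm_smul, norm_inv,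
    Real.norm_eq_abs, inv_mul_eq_div]

theorem fs_le_of_deriv {z : ℝ → H} {t : ℝ} {z' : H} (hz : ∀ᶠ s in 𝓝 t, ‖z s‖ = 1)
    (hd : HasDerivAt z z' t) {C : ℝ} (hC : ‖Qp (z t) z'‖ < C) :
    ∀ᶠ s in 𝓝[≠] t, fs (z t) (z s) ≤ C * |s - t| := by
  have hzt : ‖z t‖ = 1 := hz.self_of_nhds
  have h1 := tendsto_Qp hzt hd
  have h2 : Tendsto (fun s => ‖(inner ℂ (z t) (z s) : ℂ)‖) (𝓝[≠] t) (𝓝 1) := by
    have h3 : ContinuousAt (fun s => ‖(inner ℂ (z t) (z s) : ℂ)‖) t :=
      (continuousAt_const.inner hd.continuousAt).norm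
    have h4 := h3.tendsto.mono_left (nhdsWithin_le_nhds (s := {t}ᶜ))
    simp only [inner_self_eq_norm_sq_to_K, hzt] at h4
    simpa using h4
  have h3 := h1.div h2 one_ne_zero
  rw [div_one] at h3
  filter_upwards [h3.eventually_lt_const hC, h2.eventually_const_lt one_half_lt_one,
    nhdsWithin_le_nhds hz, self_mem_nhdsWithin] with s h4 h5 h6 h7
  have hs : 0 < |s - t| := abs_pos.2 (sub_ne_zero.2 h7)
  have hcos : 0 < Real.cos (fs (z t) (z s)) := by
    rw [cos_fs hzt h6]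
    linarith
  have hlt : fs (z t) (z s) < Real.pi / 2 := by
    refine lt_of_le_of_ne (fs_le _ _) fun h => ?_
    rw [h, Real.cos_pi_div_two] at hcos
    exact lt_irrefl _ hcos
  have h8 := Real.le_tan (fs_nonneg (z t) (z s)) hlt
  rw [Real.tan_eq_sin_div_cos, sin_fs hzt h6, cos_fs hzt h6] at h8
  refine h8.trans ?_
  have h9 : ‖Qp (z t) (z s)‖ / ‖(inner ℂ (z t) (z s) : ℂ)‖ =
      ‖Qp (z t) (z s)‖ / |s - t| / ‖(inner ℂ (z t) (z s) : ℂ)‖ * |s - t| := by
    field_simp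
  rw [h9]
  exact mul_le_mul_of_nonneg_right h4.le hs.le

/-- if the distance between nearby points of the curve is the parameter distance, the orthogonal
part of the derivative is a unit vector -/
theorem norm_Qp_eq_one {z : ℝ → H} {t : ℝ} {z' : H} (hz : ∀ᶠ s in 𝓝 t, ‖z s‖ = 1)
    (hd : HasDerivAt z z' t) (h : ∀ᶠ s in 𝓝 t, fs (z t) (z s) = |s - t|) :
    ‖Qp (z t) z'‖ = 1 := by
  have hzt : ‖z t‖ = 1 := hz.self_of_nhds
  have h1 := tendsto_Qp hzt hd
  have h2 : Tendsto (fun s : ℝ => |slope Real.sin 0 (s - t)|) (𝓝[≠] t) (𝓝 1) := by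
    have h3 := (hasDerivAt_iff_tendsto_slope.1 (Real.hasDerivAt_sin 0)).abs
    rw [Real.cos_zero, abs_one] at h3
    refine h3.comp ?_
    refine tendsto_nhdsWithin_iff.2 ⟨?_, ?_⟩
    · have h4 : Tendsto (fun s : ℝ => s - t) (𝓝 t) (𝓝 (t - t)) :=
        (continuous_id.sub continuous_const).tendsto t
      rw [sub_self] at h4
      exact h4.mono_left nhdsWithin_le_nhds
    · filter_upwards [self_mem_nhdsWithin] with s hs
      exact sub_ne_zero.2 hs
  refine tendsto_nhds_unique h1 (h2.congr' ?_)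
  filter_upwards [nhdsWithin_le_nhds hz, nhdsWithin_le_nhds h, self_mem_nhdsWithin] with s h3 h4 h5
  rw [← sin_fs hzt h3, h4, slope_def_field, Real.sin_zero, sub_zero, sub_zero, abs_div]
  congr 1
  rcases abs_cases (s - t) with h6 | h6
  · rw [h6.1]
    refine abs_of_nonneg (Real.sin_nonneg_of_nonneg_of_le_pi h6.2 ?_)
    have h7 := fs_le (z t) (z s)
    rw [h4, h6.1] at h7
    linarith [Real.pi_pos]
  · rw [h6.1, Real.sin_neg]
    refine abs_of_nonpos (Real.sin_nonpos_of_nonpos_of_neg_pi_le h6.2.le ?_)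
    have h7 := fs_le (z t) (z s)
    rw [h4, h6.1] at h7
    linarith [Real.pi_pos]

section Lip

variable {δ : ℝ → ℝ → ℝ} {C a b : ℝ}

theorem lip_interval (hab : a ≤ b) (h0 : ∀ t, δ t t = 0)
    (htri : ∀ r s t, δ r t ≤ δ r s + δ s t) (hcont : ContinuousOn (δ a) (Icc a b))
    (hloc : ∀ t ∈ Ico a b, ∀ C' > C, ∀ᶠ s in 𝓝[>] t, δ t s ≤ C' * (s - t)) :
    δ a b ≤ C * (b - a) := by
  have h1 := image_le_of_liminf_slope_right_le_deriv_boundary (f := δ a) (a := a) (b := b)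
    (B := fun t => C * (t - a)) (B' := fun _ => C) hcont (by rw [h0]; simp)
    (by fun_prop)
    (fun x _ => by
      have h2 := ((hasDerivAt_id x).sub_const a).const_mul C
      rw [mul_one] at h2
      exact h2.hasDerivWithinAt)
    (fun x hx r hr => by
      obtain ⟨C', hC1, hC2⟩ := exists_between hr
      refine Eventually.frequently ?_
      filter_upwards [hloc x hx C' hC1, self_mem_nhdsWithin] with s hs hs'
      have h3 : 0 < s - x := sub_pos.2 hs'
      rw [slope_def_field, div_lt_iff₀ h3]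
      have h4 := htri a x s
      have h5 : C' * (s - x) < r * (s - x) := mul_lt_mul_of_pos_right hC2 h3
      linarith)
  exact h1 ⟨hab, le_rfl⟩

theorem lip_open (hab : a ≤ b) (h0 : ∀ t, δ t t = 0)
    (htri : ∀ r s t, δ r t ≤ δ r s + δ s t) (hcont : Continuous fun p : ℝ × ℝ => δ p.1 p.2)
    (hloc : ∀ t ∈ Ioo a b, ∀ C' > C, ∀ᶠ s in 𝓝[>] t, δ t s ≤ C' * (s - t)) :
    δ a b ≤ C * (b - a) := by
  rcases hab.eq_or_lt with rfl | hab'
  · rw [h0]
    simp
  have hcl : IsClosed {t : ℝ | δ t b ≤ C * (b - t)} :=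
    isClosed_le (hcont.comp (continuous_id.prodMk continuous_const)) (by fun_prop)
  have hsub : Ioo a b ⊆ {t : ℝ | δ t b ≤ C * (b - t)} := fun t ht =>
    lip_interval ht.2.le h0 htri (hcont.comp (continuous_const.prodMk continuous_id)).continuousOn
      fun s hs => hloc s ⟨ht.1.trans_le hs.1, hs.2⟩
  have h2 := closure_minimal hsub hcl
  rw [closure_Ioo hab'.ne] at h2
  exact h2 ⟨le_rfl, hab⟩

theorem lip_finite (B : Finset ℝ) (hab : a ≤ b) (h0 : ∀ t, δ t t = 0)
    (htri : ∀ r s t, δ r t ≤ δ r s + δ s t) (hcont : Continuous fun p : ℝ × ℝ => δ p.1 p.2)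
    (hloc : ∀ t ∈ Ioo a b, t ∉ B → ∀ C' > C, ∀ᶠ s in 𝓝[>] t, δ t s ≤ C' * (s - t)) :
    δ a b ≤ C * (b - a) := by
  induction hn : B.card using Nat.strong_induction_on generalizing B a b with
  | _ n ih =>
    by_cases h : ∃ t ∈ B, t ∈ Ioo a b
    · obtain ⟨t, htB, ht⟩ := h
      have hcard : (B.erase t).card < n := by
        rw [← hn]
        exact Finset.card_erase_lt_of_mem htB
      have h1 := ih _ hcard (B := B.erase t) (a := a) (b := t) ht.1.le (fun s hs hsB =>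
        hloc s ⟨hs.1, hs.2.trans ht.2⟩ fun h => hsB (Finset.mem_erase.2 ⟨hs.2.ne, h⟩)) rfl
      have h2 := ih _ hcard (B := B.erase t) (a := t) (b := b) ht.2.le (fun s hs hsB =>
        hloc s ⟨ht.1.trans hs.1, hs.2⟩ fun h => hsB (Finset.mem_erase.2 ⟨hs.1.ne', h⟩)) rfl
      have h3 := htri a t b
      linarith
    · exact lip_open hab h0 htri hcont fun t ht => hloc t ht fun htB => h ⟨t, htB, ht⟩

end Lip

end

end Vale.Agent.P231.FS
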