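import Vale.Agent.P231.H512.FS1
import Vale.Agent.P231.H512.Conj
import Mathlib.Analysis.SpecialFunctions.Trigonometric.Sinc

/-! Geodesic polar coordinates of the complex projective space. -/

set_option maxSynthPendingDepth 3
set_option linter.unusedSectionVars false

open Set Filter
open scoped Topology ComplexConjugate

namespace Vale.Agent.P231.FS

noncomputable section

variable {V : Type*} [NormedAddCommGroup V] [InnerProductSpace ℝ V]
  {H : Type*} [NormedAddCommGroup H] [InnerProductSpace ℂ H]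

theorem inn_rl (r : ℝ) (x y : H) : (inner ℂ (r • x) y : ℂ) = r * inner ℂ x y := by
  rw [← Complex.coe_smul, inner_smul_left, Complex.conj_ofReal]

theorem inn_rr (r : ℝ) (x y : H) : (inner ℂ x (r • y) : ℂ) = r * inner ℂ x y := by
  rw [← Complex.coe_smul, inner_smul_right]

theorem norm_sq_of_inner {X : H} {r : ℝ} (h : (inner ℂ X X : ℂ) = (r : ℂ)) : ‖X‖ ^ 2 = r := by
  rw [← inner_self_eq_norm_sq (𝕜 := ℂ) X, h]
  exact Complex.ofReal_re r

/-- `H = ℂ e₀ ⊕ V` -/
structure Emb (J : V →ₗ[ℝ] V) (e0 : H) (ι : V →L[ℝ] H) : Prop where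
  unit : ‖e0‖ = 1
  orth : ∀ v, (inner ℂ e0 (ι v) : ℂ) = 0
  inn : ∀ v w, (inner ℂ (ι v) (ι w) : ℂ) = ⟨inner ℝ v w, -inner ℝ v (J w)⟩
  mulI : ∀ v, ι (J v) = Complex.I • ι v
  surj : ∀ z : H, ∃ (α : ℂ) (v : V), z = α • e0 + ι v

/-- the unit vector `cos(c‖v‖) e₀ + sin(c‖v‖) v/‖v‖` -/
def S (c : ℝ) (e0 : H) (ι : V →L[ℝ] H) (v : V) : H :=
  Real.cos (c * ‖v‖) • e0 + (c * Real.sinc (c * ‖v‖)) • ι v

theorem continuous_S (c : ℝ) (e0 : H) (ι : V →L[ℝ] H) : Continuous (S c e0 ι) := by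
  unfold S
  have h1 := Real.continuous_sinc
  have h2 := Real.continuous_cos
  exact ((h2.comp (continuous_const.mul continuous_norm)).smul continuous_const).add
    ((continuous_const.mul (h1.comp (continuous_const.mul continuous_norm))).smul ι.continuous)

section

variable {J : V →ₗ[ℝ] V} {e0 : H} {ι : V →L[ℝ] H} (h : Emb J e0 ι)
include h

theorem Emb.orth' (v : V) : (inner ℂ (ι v) e0 : ℂ) = 0 := by
  rw [← inner_conj_symm, h.orth]
  simp

theorem Emb.e00 : (inner ℂ e0 e0 : ℂ) = 1 := by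
  rw [inner_self_eq_norm_sq_to_K, h.unit]
  simp

theorem Emb.norm (v : V) : ‖ι v‖ = ‖v‖ := by
  have h1 := h.inn v v
  rw [inner_self_eq_norm_sq_to_K] at h1
  have h2 := congrArg Complex.re h1
  simp only [real_inner_self_eq_norm_sq] at h2
  have h3 : ‖ι v‖ ^ 2 = ‖v‖ ^ 2 := by
    rw [← h2]
    norm_cast
  exact (sq_eq_sq₀ (norm_nonneg _) (norm_nonneg _)).1 h3

theorem Emb.skew (v w : V) : (inner ℝ v (J w) : ℝ) = -inner ℝ (J v) w := by
  have h1 := h.inn v w
  have h2 := h.inn w v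
  have h3 := congrArg Complex.im h1
  have h4 := congrArg Complex.im h2
  rw [← inner_conj_symm] at h3
  simp only [Complex.conj_im] at h3 h4
  rw [h4] at h3
  rw [real_inner_comm w (J v)]
  linarith

theorem inner_S (c : ℝ) (v w : V) : (inner ℂ (S c e0 ι v) (S c e0 ι w) : ℂ) =
    (Real.cos (c * ‖v‖) * Real.cos (c * ‖w‖) : ℝ) +
      ((c * Real.sinc (c * ‖v‖)) * (c * Real.sinc (c * ‖w‖)) : ℝ) * inner ℂ (ι v) (ι w) := by
  unfold S
  rw [inner_add_left, inner_add_right, inner_add_right, inn_rl, inn_rr, inn_rl, inn_rr, inn_rl,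
    inn_rr, inn_rl, inn_rr, h.e00, h.orth, h.orth']
  push_cast
  ring

theorem norm_S {c : ℝ} (hc : c ≠ 0) (v : V) : ‖S c e0 ι v‖ = 1 := by
  have h1 := inner_S h c v v
  rw [inner_self_eq_norm_sq_to_K, h.inn] at h1
  have h2 := congrArg Complex.re h1
  have h3 : ‖S c e0 ι v‖ ^ 2 = Real.cos (c * ‖v‖) ^ 2 +
      (c * Real.sinc (c * ‖v‖)) ^ 2 * ‖v‖ ^ 2 := by
    have h4 : ((‖S c e0 ι v‖ : ℂ) ^ 2).re = ‖S c e0 ι v‖ ^ 2 := by
      norm_cast
    have h5 : ((‖S c e0 ι v‖ : ℂ) ^ 2).re = Real.cos (c * ‖v‖) * Real.cos (c * ‖v‖) +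
      ((c * Real.sinc (c * ‖v‖)) * (c * Real.sinc (c * ‖v‖))) * inner ℝ v v := by
      refine h2.trans ?_
      rw [Complex.add_re, Complex.re_ofReal_mul, Complex.ofReal_re]
    rw [h4] at h5
    rw [h5, real_inner_self_eq_norm_sq]
    ring
  have h4 : (c * Real.sinc (c * ‖v‖)) ^ 2 * ‖v‖ ^ 2 = Real.sin (c * ‖v‖) ^ 2 := by
    rcases eq_or_ne v 0 with rfl | hv
    · simp
    · have h5 : c * ‖v‖ ≠ 0 := mul_ne_zero hc (norm_ne_zero_iff.2 hv)
      rw [Real.sinc_of_ne_zero h5]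
      field_simp
  rw [h4, Real.cos_sq_add_sin_sq] at h3
  exact (pow_eq_one_iff_of_nonneg (norm_nonneg _) two_ne_zero).1 h3

/-- polar form -/
theorem S_polar {c : ℝ} (hc : c ≠ 0) {u : V} (hu : ‖u‖ = 1) {r : ℝ} (hr : 0 < r) :
    S c e0 ι (r • u) = Real.cos (c * r) • e0 + Real.sin (c * r) • ι u := by
  unfold S
  have h1 : ‖r • u‖ = r := by rw [norm_smul, hu, mul_one, Real.norm_of_nonneg hr.le]
  rw [h1, Real.sinc_of_ne_zero (mul_ne_zero hc hr.ne'), map_smul, smul_smul]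
  congr 2
  field_simp

/-- the orthogonal part of the derivative -/
theorem norm_Qp_polar {u w : V} (hu : ‖u‖ = 1) (huw : inner ℝ u w = (0 : ℝ)) (θ m k : ℝ) :
    ‖Qp (Real.cos θ • e0 + Real.sin θ • ι u)
      ((-(m * Real.sin θ)) • e0 + (m * Real.cos θ) • ι u + k • ι w)‖ ^ 2 =
      m ^ 2 + k ^ 2 * (‖w‖ ^ 2 - Real.sin θ ^ 2 * inner ℝ (J u) w ^ 2) := by
  have hcs := Real.cos_sq_add_sin_sq θ
  have hJu : (inner ℝ u (J u) : ℝ) = 0 := by
    have h1 := h.skew u u
    rw [real_inner_comm (J u) u] at h1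
    rw [real_inner_comm (J u) u]
    linarith
  have hJw : (inner ℝ w (J w) : ℝ) = 0 := by
    have h1 := h.skew w w
    rw [real_inner_comm (J w) w] at h1
    rw [real_inner_comm (J w) w]
    linarith
  have huu : (inner ℂ (ι u) (ι u) : ℂ) = 1 := by
    rw [h.inn, hJu, real_inner_self_eq_norm_sq, hu]
    apply Complex.ext <;> simp
  have huw' : (inner ℂ (ι u) (ι w) : ℂ) = (inner ℝ (J u) w : ℝ) * Complex.I := by
    rw [h.inn, huw, h.skew, neg_neg]
    apply Complex.ext <;> simp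
  have hwu' : (inner ℂ (ι w) (ι u) : ℂ) = -((inner ℝ (J u) w : ℝ) * Complex.I) := by
    rw [← inner_conj_symm, huw']
    simp
  have hww : (inner ℂ (ι w) (ι w) : ℂ) = (‖w‖ : ℂ) ^ 2 := by
    rw [h.inn, hJw, real_inner_self_eq_norm_sq]
    apply Complex.ext
    · norm_cast
    · norm_cast
      simp
  have hcs' : (Real.cos θ : ℂ) ^ 2 + (Real.sin θ : ℂ) ^ 2 = 1 := by exact_mod_cast hcs
  have hz : ‖Real.cos θ • e0 + Real.sin θ • ι u‖ = 1 := by
    have h1 : (inner ℂ (Real.cos θ • e0 + Real.sin θ • ι u)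
        (Real.cos θ • e0 + Real.sin θ • ι u) : ℂ) = ((1 : ℝ) : ℂ) := by
      simp only [inner_add_left, inner_add_right, inn_rl, inn_rr, h.e00, h.orth, h.orth', huu]
      rw [Complex.ofReal_one]
      linear_combination hcs'
    exact (pow_eq_one_iff_of_nonneg (norm_nonneg _) two_ne_zero).1 (norm_sq_of_inner h1)
  rw [norm_Qp_sq hz]
  set X := (-(m * Real.sin θ)) • e0 + (m * Real.cos θ) • ι u + k • ι w with hX
  have h1 : (inner ℂ (Real.cos θ • e0 + Real.sin θ • ι u) X : ℂ) =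
      ((k * Real.sin θ * inner ℝ (J u) w : ℝ) : ℂ) * Complex.I := by
    rw [hX]
    simp only [inner_add_left, inner_add_right, inn_rl, inn_rr, h.e00, h.orth, h.orth', huu,
      huw']
    push_cast
    ring
  have h2 : (inner ℂ X X : ℂ) = ((m ^ 2 + k ^ 2 * ‖w‖ ^ 2 : ℝ) : ℂ) := by
    rw [hX]
    simp only [inner_add_left, inner_add_right, inn_rl, inn_rr, h.e00, h.orth, h.orth', huu,
      huw', hwu', hww]
    push_cast at hcs' ⊢
    linear_combination (m : ℂ) ^ 2 * hcs'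
  rw [norm_sq_of_inner h2, h1, norm_mul, Complex.norm_I, mul_one, Complex.norm_real,
    Real.norm_eq_abs, sq_abs]
  ring

/-- the derivative of `S` along a curve -/
theorem deriv_S {c : ℝ} (hc : c ≠ 0) {η : ℝ → V} {t : ℝ} {η' : V} (hη : HasDerivAt η η' t)
    {r : ℝ} (hr : ‖η t‖ = r) (hr0 : 0 < r) {u : V} (hu : η t = r • u) {a : ℝ}
    (ha : inner ℝ u η' = a) :
    ∃ z' : H, HasDerivAt (fun s => S c e0 ι (η s)) z' t ∧
      ‖Qp (S c e0 ι (η t)) z'‖ ^ 2 = (c * a) ^ 2 + (Real.sin (c * r) / r) ^ 2 *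
        (‖η' - a • u‖ ^ 2 - Real.sin (c * r) ^ 2 * inner ℝ (J u) (η' - a • u) ^ 2) := by
  have hu1 : ‖u‖ = 1 := by
    rw [hu, norm_smul, Real.norm_of_nonneg hr0.le] at hr
    exact mul_left_cancel₀ hr0.ne' (hr.trans (mul_one r).symm)
  have huu : (inner ℝ u u : ℝ) = 1 := by rw [real_inner_self_eq_norm_sq, hu1, one_pow]
  have huw : inner ℝ u (η' - a • u) = (0 : ℝ) := by
    rw [inner_sub_right, inner_smul_right, huu, ha]
    ring
  have hnorm : HasDerivAt (fun s => ‖η s‖) a t := by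
    have h1 := (hη.norm_sq).sqrt (by
      rw [hr]
      positivity)
    have h2 : (fun s => √(‖η s‖ ^ 2)) = fun s => ‖η s‖ :=
      funext fun s => Real.sqrt_sq (norm_nonneg _)
    rw [h2, hr, Real.sqrt_sq hr0.le, hu, inner_smul_left, ha] at h1
    have h3 : 2 * ((starRingEnd ℝ) r * a) / (2 * r) = a := by
      rw [RCLike.conj_to_real]
      field_simp
    rw [h3] at h1
    exact h1
  have hcos : HasDerivAt (fun s => Real.cos (c * ‖η s‖)) (-Real.sin (c * r) * (c * a)) t := by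
    have h1 := (hnorm.const_mul c).cos
    rw [hr] at h1
    exact h1
  have hsin : HasDerivAt (fun s => Real.sin (c * ‖η s‖)) (Real.cos (c * r) * (c * a)) t := by
    have h1 := (hnorm.const_mul c).sin
    rw [hr] at h1
    exact h1
  have hquo : HasDerivAt (fun s => Real.sin (c * ‖η s‖) / ‖η s‖)
      ((Real.cos (c * r) * (c * a) * r - Real.sin (c * r) * a) / r ^ 2) t := by
    have h1 := hsin.div hnorm (by rw [hr]; exact hr0.ne')
    rw [hr] at h1
    exact h1
  have hS : (fun s => S c e0 ι (η s)) =ᶠ[𝓝 t] fun s =>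
      Real.cos (c * ‖η s‖) • e0 + (Real.sin (c * ‖η s‖) / ‖η s‖) • ι (η s) := by
    have h1 : ∀ᶠ s in 𝓝 t, η s ≠ 0 := by
      refine hη.continuousAt.eventually_ne ?_
      rw [← norm_ne_zero_iff, hr]
      exact hr0.ne'
    filter_upwards [h1] with s hs
    have h2 : ‖η s‖ ≠ 0 := norm_ne_zero_iff.2 hs
    unfold S
    rw [Real.sinc_of_ne_zero (mul_ne_zero hc h2)]
    congr 2
    field_simp
  have hd := ((hcos.smul_const e0).add
    (hquo.smul (ι.hasFDerivAt.comp_hasDerivAt t hη))).congr_of_eventuallyEq hS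
  refine ⟨_, hd, ?_⟩
  have h1 : S c e0 ι (η t) = Real.cos (c * r) • e0 + Real.sin (c * r) • ι u := by
    rw [hu]
    exact S_polar h hc hu1 hr0
  rw [h1, ← norm_Qp_polar h hu1 huw (c * r) (c * a) (Real.sin (c * r) / r)]
  congr 3
  have h2 : ι (η t) = r • ι u := by rw [hu, map_smul]
  have h3 : ι (η' - a • u) = ι η' - a • ι u := by rw [map_sub, map_smul]
  simp only [Function.comp_apply, hr, h2, h3]
  have hr' := hr0.ne'
  match_scalars
  · ring
  · field_simp
  · field_simp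
    ring

end

end

end Vale.Agent.P231.FS
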