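import Vale.Agent.P231.H512.FS2
import Mathlib.Analysis.SpecialFunctions.Trigonometric.InverseDeriv

/-! The inverse of the polar coordinates of the complex projective space. -/

set_option maxSynthPendingDepth 3
set_option linter.unusedSectionVars false

open Set Filter
open scoped Topology ComplexConjugate ContDiff

namespace Vale.Agent.P231.FS

noncomputable section

variable {V : Type*} [NormedAddCommGroup V] [InnerProductSpace ℝ V]
  {H : Type*} [NormedAddCommGroup H] [InnerProductSpace ℂ H]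

/-- the radial factor of the logarithm -/
def lg (c s : ℝ) : ℝ := Real.arccos (√s) / (c * (√s * √(1 - s)))

theorem contDiffAt_lg (c : ℝ) (hc : c ≠ 0) {s : ℝ} (h0 : 0 < s) (h1 : s < 1) :
    ContDiffAt ℝ ∞ (lg c) s := by
  unfold lg
  have hs : 0 < √s := Real.sqrt_pos.2 h0
  have hs1 : √s < 1 := by
    rw [Real.sqrt_lt' one_pos]
    linarith
  have h2 : ContDiffAt ℝ ∞ (fun s => √s) s := Real.contDiffAt_sqrt h0.ne'
  have h3 : ContDiffAt ℝ ∞ (fun s => √(1 - s)) s :=
    (Real.contDiffAt_sqrt (by linarith)).comp s (contDiffAt_const.sub contDiffAt_id)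
  have h4 : ContDiffAt ℝ ∞ (fun s => Real.arccos (√s)) s :=
    (Real.contDiffAt_arccos (by linarith) hs1.ne).comp s h2
  refine h4.div (contDiffAt_const.mul (h2.mul h3)) ?_
  have : 0 < √(1 - s) := Real.sqrt_pos.2 (by linarith)
  positivity

section

variable {J : V →ₗ[ℝ] V} {e0 : H} {ι : V →L[ℝ] H} (h : Emb J e0 ι)
include h

theorem Emb.norm_sq (α : ℂ) (y : V) : ‖α • e0 + ι y‖ ^ 2 = ‖α‖ ^ 2 + ‖y‖ ^ 2 := by
  have h1 : (inner ℂ (α • e0) (ι y) : ℂ) = 0 := by rw [inner_smul_left, h.orth, mul_zero]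
  have h2 := norm_add_sq_eq_norm_sq_add_norm_sq_of_inner_eq_zero _ _ h1
  rw [norm_smul, h.unit, mul_one, h.norm] at h2
  nlinarith only [h2]

theorem Emb.smulc (α : ℂ) (y : V) : ι (α.re • y + α.im • J y) = α • ι y := by
  rw [map_add, map_smul, map_smul, h.mulI, ← Complex.coe_smul, ← Complex.coe_smul, smul_smul,
    ← add_smul, Complex.re_add_im]

theorem Emb.norm_smulc (α : ℂ) (y : V) : ‖α.re • y + α.im • J y‖ = ‖α‖ * ‖y‖ := by
  rw [← h.norm, h.smulc, norm_smul, h.norm]

theorem Emb.inj {v w : V} (hvw : ι v = ι w) : v = w := by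
  have h1 := h.norm (v - w)
  rw [map_sub, hvw, sub_self, norm_zero] at h1
  exact sub_eq_zero.1 (norm_eq_zero.1 h1.symm)

theorem inner_e0_S (c : ℝ) (v : V) : (inner ℂ e0 (S c e0 ι v) : ℂ) = Real.cos (c * ‖v‖) := by
  unfold S
  rw [inner_add_right, inn_rr, inn_rr, h.e00, h.orth]
  simp

/-- the logarithm -/
theorem S_log {c : ℝ} (hc : 0 < c) {α : ℂ} {y : V} (hα : α ≠ 0) (hy : y ≠ 0)
    (h1 : ‖α‖ ^ 2 + ‖y‖ ^ 2 = 1) :
    ‖lg c (‖α‖ ^ 2) • ((conj α).re • y + (conj α).im • J y)‖ = Real.arccos ‖α‖ / c ∧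
    S c e0 ι (lg c (‖α‖ ^ 2) • ((conj α).re • y + (conj α).im • J y)) =
      (conj α / ‖α‖ : ℂ) • (α • e0 + ι y) := by
  have hα0 : 0 < ‖α‖ := norm_pos_iff.2 hα
  have hy0 : 0 < ‖y‖ := norm_pos_iff.2 hy
  have hα1 : ‖α‖ < 1 := by nlinarith
  have hs : √(‖α‖ ^ 2) = ‖α‖ := Real.sqrt_sq hα0.le
  have hs' : √(1 - ‖α‖ ^ 2) = ‖y‖ := by
    rw [← h1, add_sub_cancel_left, Real.sqrt_sq hy0.le]
  set θ := Real.arccos ‖α‖ with hθ
  have hθ0 : 0 < θ := Real.arccos_pos.2 hα1
  have hcos : Real.cos θ = ‖α‖ := Real.cos_arccos (by linarith) hα1.le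
  have hsin : Real.sin θ = ‖y‖ := by
    rw [hθ, Real.sin_arccos, hs']
  set y' : V := (conj α).re • y + (conj α).im • J y with hy'
  have hn : ‖y'‖ = ‖α‖ * ‖y‖ := by rw [hy', h.norm_smulc, RCLike.norm_conj]
  have hl : lg c (‖α‖ ^ 2) = θ / (c * (‖α‖ * ‖y‖)) := by
    unfold lg
    rw [hs, hs']
  set u : V := (‖α‖ * ‖y‖)⁻¹ • y' with hu
  have hu1 : ‖u‖ = 1 := by
    rw [hu, norm_smul, hn, norm_inv, Real.norm_of_nonneg (by positivity), inv_mul_cancel₀]
    positivity
  have hv : lg c (‖α‖ ^ 2) • y' = (θ / c) • u := by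
    rw [hl, hu, smul_smul]
    congr 1
    field_simp
  rw [hv]
  refine ⟨?_, ?_⟩
  · rw [norm_smul, hu1, mul_one, Real.norm_of_nonneg (by positivity)]
  · rw [S_polar h hc.ne' hu1 (by positivity)]
    have h2 : c * (θ / c) = θ := by field_simp
    rw [h2, hcos, hsin, hu, map_smul, hy', h.smulc, smul_add, smul_smul, smul_smul]
    congr 1
    · rw [← Complex.coe_smul]
      congr 1
      have h3 : conj α * α = (‖α‖ : ℂ) ^ 2 := by
        rw [mul_comm, Complex.mul_conj, Complex.normSq_eq_norm_sq]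
        push_cast
        rfl
      have h4 : (‖α‖ : ℂ) ≠ 0 := by exact_mod_cast hα0.ne'
      field_simp
      rw [h3]
    · rw [← Complex.coe_smul, smul_smul]
      congr 1
      have h4 : (‖α‖ : ℂ) ≠ 0 := by exact_mod_cast hα0.ne'
      have h5 : (‖y‖ : ℂ) ≠ 0 := by exact_mod_cast hy0.ne'
      push_cast
      field_simp

/-- every unit vector is, up to a phase, of the form `S v` with `‖v‖ ≤ π/(2c)` -/
theorem S_surj {c : ℝ} (hc : 0 < c) {z : H} (hz : ‖z‖ = 1) :
    ∃ v : V, c * ‖v‖ ≤ Real.pi / 2 ∧ ∃ μ : ℂ, ‖μ‖ = 1 ∧ S c e0 ι v = μ • z := by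
  obtain ⟨α, y, rfl⟩ := h.surj z
  have h1 := h.norm_sq α y
  rw [hz, one_pow] at h1
  rcases eq_or_ne y 0 with rfl | hy
  · refine ⟨0, by rw [norm_zero, mul_zero]; positivity, conj α, ?_, ?_⟩
    · rw [RCLike.norm_conj]
      rw [norm_zero] at h1
      exact (pow_eq_one_iff_of_nonneg (norm_nonneg _) two_ne_zero).1 (by linarith)
    · have h3 : conj α * α = 1 := by
        rw [mul_comm, Complex.mul_conj, Complex.normSq_eq_norm_sq]
        rw [norm_zero] at h1
        have : ‖α‖ ^ 2 = 1 := by linarith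
        rw [this]
        simp
      rw [map_zero, add_zero, smul_smul, h3, one_smul]
      unfold S
      simp
  · rcases eq_or_ne α 0 with rfl | hα
    · have hy1 : ‖y‖ = 1 := by
        rw [norm_zero] at h1
        exact (pow_eq_one_iff_of_nonneg (norm_nonneg _) two_ne_zero).1 (by linarith)
      refine ⟨(Real.pi / 2 / c) • y, ?_, 1, by simp, ?_⟩
      · rw [norm_smul, hy1, mul_one, Real.norm_of_nonneg (by positivity)]
        have : c * (Real.pi / 2 / c) = Real.pi / 2 := by field_simp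
        rw [this]
      · rw [S_polar h hc.ne' hy1 (by positivity)]
        have : c * (Real.pi / 2 / c) = Real.pi / 2 := by field_simp
        rw [this]
        simp
    · obtain ⟨h2, h3⟩ := S_log h hc hα hy h1.symm
      refine ⟨_, ?_, _, ?_, h3⟩
      · rw [h2]
        have : c * (Real.arccos ‖α‖ / c) = Real.arccos ‖α‖ := by field_simp
        rw [this, Real.arccos_le_pi_div_two]
        exact norm_nonneg _
      · rw [norm_div, RCLike.norm_conj, Complex.norm_real, norm_norm,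
          div_self (norm_ne_zero_iff.2 hα)]

end

end

end Vale.Agent.P231.FS
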