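import Vale.Agent.P231.H512.Iso3
import Vale.Agent.P231.H512.FS3

/-! P231: the map of a Blaschke manifold of model volume and cut multiplicity one to the complex
projective space. -/

set_option maxSynthPendingDepth 3
set_option linter.unusedSectionVars false

open Bundle Manifold Set Filter Module
open scoped ContDiff Manifold Topology ComplexConjugate

namespace Vale.Agent.P231.FS

noncomputable section

open Vale.Agent.P234 Vale.Agent.P231 Vale.Agent.P231.H703 Vale.Agent.P231.H775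
  Vale.Agent.P231.H512

variable {E : Type*} [NormedAddCommGroup E] [NormedSpace ℝ E] [FiniteDimensional ℝ E]
  {M : Type*} [MetricSpace M] [ChartedSpace E M]
  [RiemannianBundle (fun x : M => TangentSpace 𝓘(ℝ, E) x)]
  [IsManifold 𝓘(ℝ, E) ∞ M]
  [IsContMDiffRiemannianBundle 𝓘(ℝ, E) ∞ E (fun x : M => TangentSpace 𝓘(ℝ, E) x)]
  {e : ∀ x : M, TangentSpace 𝓘(ℝ, E) x → M}
  [CompactSpace M] [ConnectedSpace M] [IsRiemannianManifold 𝓘(ℝ, E) M]
  {H : Type*} [NormedAddCommGroup H] [InnerProductSpace ℂ H]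

/-- the data of the comparison with the complex projective space -/
structure Mod (e : ∀ x : M, TangentSpace 𝓘(ℝ, E) x → M) (D : ℝ) (p : M)
    (J : TangentSpace 𝓘(ℝ, E) p →ₗ[ℝ] TangentSpace 𝓘(ℝ, E) p) (e0 : H)
    (ι : TangentSpace 𝓘(ℝ, E) p →L[ℝ] H) : Prop where
  rig : Rig e D 1
  emb : Emb J e0 ι
  proj : ∃ P : ∀ _ : M, E → E →ₗ[ℝ] E, (∀ x, PData e D 1 x (P x)) ∧
    ∀ u w : TangentSpace 𝓘(ℝ, E) p, ‖u‖ = 1 →
      P p (u : E) (w : E) = (((inner ℝ (J u) w : ℝ) • J u : TangentSpace 𝓘(ℝ, E) p) : E)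

variable {D : ℝ} {p : M} {J : TangentSpace 𝓘(ℝ, E) p →ₗ[ℝ] TangentSpace 𝓘(ℝ, E) p} {e0 : H}
    {ι : TangentSpace 𝓘(ℝ, E) p →L[ℝ] H}

/-- the constant -/
def cc (D : ℝ) : ℝ := Real.pi / (2 * D)

theorem Mod.cpos (m : Mod e D p J e0 ι) : 0 < cc D := by
  have := m.rig.pos
  unfold cc
  positivity

theorem Mod.ccD (m : Mod e D p J e0 ι) : cc D * D = Real.pi / 2 := by
  have := m.rig.pos.ne'
  unfold cc
  field_simp

/-- the map -/
def ZZ (F : Facts e) (D : ℝ) (p : M) (e0 : H) (ι : TangentSpace 𝓘(ℝ, E) p →L[ℝ] H) (x : M) : H :=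
  S (cc D) e0 ι (symmL F p x)

theorem Mod.norm_ZZ (m : Mod e D p J e0 ι) (x : M) : ‖ZZ m.rig.facts D p e0 ι x‖ = 1 :=
  norm_S m.emb m.cpos.ne' _

theorem Mod.same (m : Mod e D p J e0 ι) {u u' : TangentSpace 𝓘(ℝ, E) p} (hu : ‖u‖ = 1)
    (hu' : ‖u'‖ = 1) : e p (D • u) = e p (D • u') ↔
      u' = (inner ℝ u u' : ℝ) • u + (inner ℝ (J u) u' : ℝ) • J u := by
  obtain ⟨P, hP, hJ⟩ := m.proj
  have h1 := same_point_iff m.rig.facts m.rig.pos m.rig.closed hP m.rig.symm p
    (u := (u : E)) (u' := (u' : E)) hu hu'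
  rw [hJ u u' hu] at h1
  exact h1

theorem Mod.S_D (m : Mod e D p J e0 ι) {v : TangentSpace 𝓘(ℝ, E) p} (hv : ‖v‖ = D) :
    S (cc D) e0 ι v = ι (D⁻¹ • v) := by
  have hD := m.rig.pos
  have h1 : ‖D⁻¹ • v‖ = 1 := by
    rw [norm_smul, hv, Real.norm_of_nonneg (inv_pos.2 hD).le, inv_mul_cancel₀ hD.ne']
  have h2 : v = D • (D⁻¹ • v) := by rw [smul_smul, mul_inv_cancel₀ hD.ne', one_smul]
  have h3 := S_polar m.emb m.cpos.ne' h1 hD
  rw [← h2, m.ccD, Real.cos_pi_div_two, Real.sin_pi_div_two, zero_smul, zero_add, one_smul] at h3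
  exact h3

theorem Mod.symmL_of_lt (m : Mod e D p J e0 ι) {v : TangentSpace 𝓘(ℝ, E) p} (hv : ‖v‖ < D) :
    symmL m.rig.facts p (e p v) = v := by
  have h2 : v ∈ injDomain e p := m.rig.inj.mem_injDomain hv
  have h3 : symmL m.rig.facts p (e p v) ∈ segMin e p := by
    show dist p (e p (symmL m.rig.facts p (e p v))) = ‖symmL m.rig.facts p (e p v)‖
    rw [symmL_exp m.rig.facts, symmL_norm m.rig.facts]
  exact m.rig.facts.injDomain_unique h2 h3 (symmL_exp m.rig.facts p _)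

theorem Mod.symmL_norm_of_le (m : Mod e D p J e0 ι) {v : TangentSpace 𝓘(ℝ, E) p} (hv : ‖v‖ ≤ D) :
    ‖symmL m.rig.facts p (e p v)‖ = ‖v‖ :=
  (symmL_norm m.rig.facts p (e p v)).trans (m.rig.inj p v hv)

/-- `Z (exp v)` is `S v` up to a phase -/
theorem Mod.phase (m : Mod e D p J e0 ι) {v : TangentSpace 𝓘(ℝ, E) p} (hv : ‖v‖ ≤ D) :
    ∃ μ : ℂ, ‖μ‖ = 1 ∧ ZZ m.rig.facts D p e0 ι (e p v) = μ • S (cc D) e0 ι v := by
  have hD := m.rig.pos
  rcases hv.lt_or_eq with h | h
  · refine ⟨1, by simp, ?_⟩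
    unfold ZZ
    rw [m.symmL_of_lt h, one_smul]
  · set v' := symmL m.rig.facts p (e p v) with hv'
    have hn' : ‖v'‖ = D := (m.symmL_norm_of_le hv).trans h
    have hu : ‖D⁻¹ • v‖ = 1 := by
      rw [norm_smul, h, Real.norm_of_nonneg (inv_pos.2 hD).le, inv_mul_cancel₀ hD.ne']
    have hu' : ‖D⁻¹ • v'‖ = 1 := by
      rw [norm_smul, hn', Real.norm_of_nonneg (inv_pos.2 hD).le, inv_mul_cancel₀ hD.ne']
    have h1 : e p (D • (D⁻¹ • v)) = e p (D • (D⁻¹ • v')) := by
      rw [smul_smul, smul_smul, mul_inv_cancel₀ hD.ne', one_smul, one_smul]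
      exact (symmL_exp m.rig.facts p _).symm
    have h2 := (m.same hu hu').1 h1
    set u := D⁻¹ • v
    set u' := D⁻¹ • v'
    set μ : ℂ := ⟨inner ℝ u u', inner ℝ (J u) u'⟩ with hμ
    have h3 : ι u' = μ • ι u := by
      conv_lhs => rw [h2]
      exact m.emb.smulc μ u
    refine ⟨μ, ?_, ?_⟩
    · have h4 := congrArg norm h3
      rwa [norm_smul, m.emb.norm, m.emb.norm, hu, hu', mul_one, eq_comm] at h4
    · show S (cc D) e0 ι v' = _
      rw [m.S_D hn', m.S_D h, h3]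

theorem Mod.fs_eq (m : Mod e D p J e0 ι) {v w : TangentSpace 𝓘(ℝ, E) p} (hv : ‖v‖ ≤ D)
    (hw : ‖w‖ ≤ D) : fs (ZZ m.rig.facts D p e0 ι (e p v)) (ZZ m.rig.facts D p e0 ι (e p w)) =
      fs (S (cc D) e0 ι v) (S (cc D) e0 ι w) := by
  obtain ⟨μ, h1, h2⟩ := m.phase hv
  obtain ⟨ν, h3, h4⟩ := m.phase hw
  rw [h2, h4, fs_smul_left _ _ h1, fs_smul_right _ _ h3]

/-- the map separates points -/
theorem Mod.inj (m : Mod e D p J e0 ι) {x y : M}
    (h : fs (ZZ m.rig.facts D p e0 ι x) (ZZ m.rig.facts D p e0 ι y) = 0) : x = y := by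
  have hD := m.rig.pos
  have hc := m.cpos
  obtain ⟨h1, h2⟩ := fs_eq_zero (m.norm_ZZ x) (m.norm_ZZ y) h
  set μ : ℂ := inner ℂ (ZZ m.rig.facts D p e0 ι x) (ZZ m.rig.facts D p e0 ι y) with hμ
  set v := symmL m.rig.facts p x with hv
  set w := symmL m.rig.facts p y with hw
  have hvx : e p v = x := symmL_exp m.rig.facts p x
  have hwy : e p w = y := symmL_exp m.rig.facts p y
  have hvD : ‖v‖ ≤ D := (symmL_norm m.rig.facts p x).trans_le (m.rig.diam _ _)
  have hwD : ‖w‖ ≤ D := (symmL_norm m.rig.facts p y).trans_le (m.rig.diam _ _)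
  have h3 : S (cc D) e0 ι w = μ • S (cc D) e0 ι v := h1
  have hle : ∀ r : ℝ, 0 ≤ r → r ≤ D → 0 ≤ Real.cos (cc D * r) := fun r h0 h1 =>
    Real.cos_nonneg_of_neg_pi_div_two_le_of_le (by
      have : 0 ≤ cc D * r := by positivity
      linarith [Real.pi_pos]) (by
      rw [← m.ccD]
      exact mul_le_mul_of_nonneg_left h1 hc.le)
  have h4 : (Real.cos (cc D * ‖w‖) : ℂ) = μ * Real.cos (cc D * ‖v‖) := by
    rw [← inner_e0_S m.emb, ← inner_e0_S m.emb, h3, inner_smul_right]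
  have h5 : Real.cos (cc D * ‖w‖) = Real.cos (cc D * ‖v‖) := by
    have h6 := congrArg norm h4
    rw [norm_mul, h2, one_mul, Complex.norm_real, Complex.norm_real,
      Real.norm_of_nonneg (hle _ (norm_nonneg _) hwD),
      Real.norm_of_nonneg (hle _ (norm_nonneg _) hvD)] at h6
    exact h6
  have hmem : ∀ r : ℝ, 0 ≤ r → r ≤ D → cc D * r ∈ Icc 0 Real.pi := fun r h0 h1 =>
    ⟨by positivity, by
      have := mul_le_mul_of_nonneg_left h1 hc.le
      rw [m.ccD] at this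
      linarith [Real.pi_pos]⟩
  have h6 : ‖w‖ = ‖v‖ := mul_left_cancel₀ hc.ne'
    (Real.injOn_cos (hmem _ (norm_nonneg _) hwD) (hmem _ (norm_nonneg _) hvD) h5)
  rcases hvD.lt_or_eq with h7 | h7
  · have h8 : 0 < Real.cos (cc D * ‖v‖) := by
      refine Real.cos_pos_of_mem_Ioo ⟨?_, ?_⟩
      · have : 0 ≤ cc D * ‖v‖ := by positivity
        linarith [Real.pi_pos]
      · rw [← m.ccD]
        exact mul_lt_mul_of_pos_left h7 hc
    have h9 : μ = 1 := by
      rw [h5] at h4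
      have h10 : (Real.cos (cc D * ‖v‖) : ℂ) ≠ 0 := by exact_mod_cast h8.ne'
      exact mul_right_cancel₀ h10 (h4.symm.trans (one_mul _).symm)
    rw [h9, one_smul] at h3
    unfold S at h3
    rw [h6] at h3
    have h10 := add_left_cancel h3
    rcases eq_or_ne v 0 with h11 | h11
    · have h12 : w = 0 := norm_eq_zero.1 (by rw [h6, h11, norm_zero])
      rw [← hvx, ← hwy, h11, h12]
    · have hv0 : 0 < ‖v‖ := norm_pos_iff.2 h11
      have h12 : cc D * ‖v‖ ≠ 0 := by positivity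
      have h13 : 0 < Real.sin (cc D * ‖v‖) := by
        refine Real.sin_pos_of_pos_of_lt_pi (by positivity) ?_
        have := mul_lt_mul_of_pos_left h7 hc
        rw [m.ccD] at this
        linarith [Real.pi_pos]
      have h14 : cc D * Real.sinc (cc D * ‖v‖) ≠ 0 := by
        rw [Real.sinc_of_ne_zero h12]
        positivity
      have h15 := smul_right_injective H h14 h10
      have h16 := m.emb.inj h15
      rw [← hvx, ← hwy, h16]
  · have h8 : ‖w‖ = D := h6.trans h7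
    rw [m.S_D h8, m.S_D h7] at h3
    have hu : ‖D⁻¹ • v‖ = 1 := by
      rw [norm_smul, h7, Real.norm_of_nonneg (inv_pos.2 hD).le, inv_mul_cancel₀ hD.ne']
    have hu' : ‖D⁻¹ • w‖ = 1 := by
      rw [norm_smul, h8, Real.norm_of_nonneg (inv_pos.2 hD).le, inv_mul_cancel₀ hD.ne']
    have hvu : v = D • (D⁻¹ • v) := by rw [smul_smul, mul_inv_cancel₀ hD.ne', one_smul]
    have hwu : w = D • (D⁻¹ • w) := by rw [smul_smul, mul_inv_cancel₀ hD.ne', one_smul]
    have h9 : D⁻¹ • w = μ.re • (D⁻¹ • v) + μ.im • J (D⁻¹ • v) := by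
      refine m.emb.inj ?_
      rw [m.emb.smulc, h3]
    have h10 : e p (D • (D⁻¹ • v)) = e p (D • (D⁻¹ • w)) := by
      rw [m.same hu hu']
      generalize D⁻¹ • v = u at *
      generalize D⁻¹ • w = u' at *
      have huu : (inner ℝ u u : ℝ) = 1 := by rw [real_inner_self_eq_norm_sq, hu, one_pow]
      have hJu : (inner ℝ (J u) u : ℝ) = 0 := by
        have h11 := m.emb.skew u u
        rw [real_inner_comm (J u) u] at h11
        linarith
      have hJJ : (inner ℝ (J u) (J u) : ℝ) = 1 := by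
        have h11 := m.emb.norm (J u)
        rw [m.emb.mulI, norm_smul, Complex.norm_I, one_mul, m.emb.norm, hu] at h11
        rw [real_inner_self_eq_norm_sq, ← h11, one_pow]
      have h11 : (inner ℝ u u' : ℝ) = μ.re := by
        rw [h9, inner_add_right, inner_smul_right, inner_smul_right, huu, real_inner_comm, hJu]
        ring
      have h12 : (inner ℝ (J u) u' : ℝ) = μ.im := by
        rw [h9, inner_add_right, inner_smul_right, inner_smul_right, hJJ, hJu]
        ring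
      rw [h11, h12]
      exact h9
    rw [← hvx, ← hwy, hvu, hwu]
    exact h10

/-- the map is surjective onto the projective space -/
theorem Mod.surj (m : Mod e D p J e0 ι) {z : H} (hz : ‖z‖ = 1) :
    ∃ x : M, ∃ μ : ℂ, ‖μ‖ = 1 ∧ ZZ m.rig.facts D p e0 ι x = μ • z := by
  obtain ⟨v, h1, μ, h2, h3⟩ := S_surj m.emb m.cpos hz
  have hv : ‖v‖ ≤ D := by
    rw [← m.ccD] at h1
    exact le_of_mul_le_mul_left h1 m.cpos
  obtain ⟨ν, h4, h5⟩ := m.phase hv
  refine ⟨e p v, ν * μ, by rw [norm_mul, h2, h4, one_mul], ?_⟩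
  rw [h5, h3, smul_smul]

/-- continuity of the distance function -/
theorem Mod.continuous_fs (m : Mod e D p J e0 ι) : Continuous fun q : M × M =>
    fs (ZZ m.rig.facts D p e0 ι q.1) (ZZ m.rig.facts D p e0 ι q.2) := by
  have : ProperSpace (TangentSpace 𝓘(ℝ, E) p) := FiniteDimensional.proper ℝ _
  have hc : Continuous (e p) := (contMDiff_exp_fiber m.rig.facts.isExp p).continuous
  let g : Metric.closedBall (0 : TangentSpace 𝓘(ℝ, E) p) D → M := fun v => e p v
  have hgc : Continuous g := hc.comp continuous_subtype_val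
  have hsurj : Function.Surjective g := fun y => by
    refine ⟨⟨symmL m.rig.facts p y, ?_⟩, symmL_exp m.rig.facts p y⟩
    rw [mem_closedBall_zero_iff]
    exact (symmL_norm m.rig.facts p y).trans_le (m.rig.diam p y)
  have hcomp : CompactSpace (Metric.closedBall (0 : TangentSpace 𝓘(ℝ, E) p) D) :=
    isCompact_iff_compactSpace.1 (isCompact_closedBall _ _)
  have hgg : Continuous (Prod.map g g) := hgc.prodMap hgc
  have hq : Topology.IsQuotientMap (Prod.map g g) :=
    hgg.isClosedMap.isQuotientMap hgg (hsurj.prodMap hsurj)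
  rw [hq.continuous_iff]
  have h1 : (fun q : M × M => fs (ZZ m.rig.facts D p e0 ι q.1) (ZZ m.rig.facts D p e0 ι q.2)) ∘
      Prod.map g g = fun q => fs (S (cc D) e0 ι q.1.1) (S (cc D) e0 ι q.2.1) :=
    funext fun q => m.fs_eq (mem_closedBall_zero_iff.1 q.1.2) (mem_closedBall_zero_iff.1 q.2.2)
  rw [h1]
  have h2 := continuous_S (cc D) e0 ι
  unfold fs
  exact Real.continuous_arccos.comp
    (((h2.comp (continuous_subtype_val.comp continuous_fst)).inner
      (h2.comp (continuous_subtype_val.comp continuous_snd))).norm)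

end

end Vale.Agent.P231.FS
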