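import Vale.Agent.P231.H512.FS4

/-! P231: the map to the complex projective space does not increase distances. -/

set_option maxSynthPendingDepth 3
set_option linter.unusedSectionVars false

open Bundle Manifold Set Filter Module
open scoped ContDiff Manifold Topology ComplexConjugate

namespace Vale.Agent.P231.FS

noncomputable section

open Vale.Agent.P234 Vale.Agent.P231 Vale.Agent.P231.H703 Vale.Agent.P231.H775
  Vale.Agent.P231.H512

variable {E : Type*} [NormedAddCommGroup E] [NormedSpace ℝ E] [FiniteDimensional ℝ E]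
  {M : Type*} [MetricSpace M] [ChartedSpace E M]
  [RiemannianBundle (fun x : M => TangentSpace 𝓘(ℝ, E) x)]
  [IsManifold 𝓘(ℝ, E) ∞ M]
  [IsContMDiffRiemannianBundle 𝓘(ℝ, E) ∞ E (fun x : M => TangentSpace 𝓘(ℝ, E) x)]
  {e : ∀ x : M, TangentSpace 𝓘(ℝ, E) x → M}
  [CompactSpace M] [ConnectedSpace M] [IsRiemannianManifold 𝓘(ℝ, E) M]
  {H : Type*} [NormedAddCommGroup H] [InnerProductSpace ℂ H]
  {D : ℝ} {p : M} {J : TangentSpace 𝓘(ℝ, E) p →ₗ[ℝ] TangentSpace 𝓘(ℝ, E) p} {e0 : H}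
  {ι : TangentSpace 𝓘(ℝ, E) p →L[ℝ] H}

/-- the metric in normal coordinates (raw form) -/
theorem metricE (F : Facts e) {P : E → E →ₗ[ℝ] E} (hP : PData e D 1 p P) {u : E}
    (hu : nm p u = 1) {j : E} (hj : ∀ w : E, P u w = ip p j w • j) (hj1 : nm p j = 1) {r : ℝ}
    (hr : r ∈ Ioo 0 D) (w : E) :
    nm (e p (r • u : E)) (dE e p (r • u) w) ^ 2 = ip p u w ^ 2 +
      (Real.sin (cc D * r) / (cc D * r)) ^ 2 *
        (nm p (w - ip p u w • u) ^ 2 - Real.sin (cc D * r) ^ 2 *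
          ip p j (w - ip p u w • u) ^ 2) := by
  have h3 := metric_formula F hP hu hr w
  have h9 : Real.pi * r / (2 * D) = cc D * r := by
    unfold cc
    ring
  rw [h9, hj, nm_smul, hj1, mul_one, sq_abs] at h3
  exact h3

/-- the derivative of the map has the right length -/
theorem Mod.speed (m : Mod e D p J e0 ι) {η : ℝ → TangentSpace 𝓘(ℝ, E) p} {t : ℝ}
    {η' : TangentSpace 𝓘(ℝ, E) p} (hη : HasDerivAt η η' t) (h0 : η t ≠ 0) (hD : ‖η t‖ < D) :
    ∃ z' : H, HasDerivAt (fun s => S (cc D) e0 ι (η s)) z' t ∧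
      ‖Qp (S (cc D) e0 ι (η t)) z'‖ =
        cc D * nm (E := E) (e p (η t)) (dE (E := E) e p (η t) η') := by
  obtain ⟨P, hP, hJ⟩ := m.proj
  have hc := m.cpos
  set r : ℝ := ‖η t‖ with hr
  have hr0 : 0 < r := norm_pos_iff.2 h0
  set u : TangentSpace 𝓘(ℝ, E) p := r⁻¹ • η t with hu
  have hηu : η t = r • u := by rw [hu, smul_smul, mul_inv_cancel₀ hr0.ne', one_smul]
  have hu1 : ‖u‖ = 1 := by
    rw [hu, norm_smul, norm_inv, norm_norm, inv_mul_cancel₀ hr0.ne']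
  set a : ℝ := inner ℝ u η' with ha
  obtain ⟨z', h1, h2⟩ := deriv_S m.emb hc.ne' hη hr.symm hr0 hηu ha.symm
  refine ⟨z', h1, ?_⟩
  have hJ1 : ‖J u‖ = 1 := by
    have h11 := m.emb.norm (J u)
    rw [m.emb.mulI, norm_smul, Complex.norm_I, one_mul, m.emb.norm, hu1] at h11
    exact h11.symm
  have h3 : nm (E := E) (e p (η t)) (dE (E := E) e p (η t) η') ^ 2 = a ^ 2 +
      (Real.sin (cc D * r) / (cc D * r)) ^ 2 *
        (‖η' - a • u‖ ^ 2 - Real.sin (cc D * r) ^ 2 *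
          (inner ℝ (J u) (η' - a • u) : ℝ) ^ 2) := by
    rw [hηu]
    exact metricE m.rig.facts (hP p) (u := u) hu1 (j := J u) (fun w => hJ u w hu1) hJ1
      ⟨hr0, hD⟩ η'
  have h10 : ‖Qp (S (cc D) e0 ι (η t)) z'‖ ^ 2 =
      (cc D * nm (E := E) (e p (η t)) (dE (E := E) e p (η t) η')) ^ 2 := by
    have h4 : (cc D * nm (E := E) (e p (η t)) (dE (E := E) e p (η t) η')) ^ 2 = cc D ^ 2 *
        (a ^ 2 + (Real.sin (cc D * r) / (cc D * r)) ^ 2 *
        (‖η' - a • u‖ ^ 2 - Real.sin (cc D * r) ^ 2 *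
          (inner ℝ (J u) (η' - a • u) : ℝ) ^ 2)) :=
      (mul_pow _ _ _).trans (congrArg (fun x => cc D ^ 2 * x) h3)
    refine Eq.trans ?_ h4.symm
    rw [h2]
    have := hc.ne'
    have := hr0.ne'
    field_simp
  exact (sq_eq_sq₀ (norm_nonneg _) (mul_nonneg hc.le (nm_nonneg _ _))).1 h10

/-- local estimate for smooth curves -/
theorem Mod.local_le (m : Mod e D p J e0 ι) {γ : ℝ → M} {t : ℝ}
    (hγ : ContMDiffAt 𝓘(ℝ, ℝ) 𝓘(ℝ, E) ∞ γ t) {ℓ : ℝ}
    (hs : nm (E := E) (γ t) (mfderiv 𝓘(ℝ, ℝ) 𝓘(ℝ, E) γ t (1 : ℝ)) = ℓ) (h0 : γ t ≠ p)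
    (hD : dist p (γ t) < D) {C : ℝ} (hC : cc D * ℓ < C) :
    ∀ᶠ s in 𝓝[≠] t, fs (ZZ m.rig.facts D p e0 ι (γ t)) (ZZ m.rig.facts D p e0 ι (γ s)) ≤
      C * |s - t| := by
  set F := m.rig.facts with hF
  set v : TangentSpace 𝓘(ℝ, E) p := symmL F p (γ t) with hv
  have hvD : ‖v‖ < D := (symmL_norm F p (γ t)).trans_lt hD
  have hev : e p v = γ t := symmL_exp F p (γ t)
  obtain ⟨Λ, hΛ, hΛv, hΛ1, -⟩ := F.smoothLog (m.rig.inj.mem_injDomain hvD)
  rw [hev] at hΛ hΛv hΛ1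
  have hηs : ContMDiffAt 𝓘(ℝ, ℝ) 𝓘(ℝ, TangentSpace 𝓘(ℝ, E) p) ∞ (fun s => Λ (γ s)) t :=
    hΛ.comp t hγ
  have h1 : γ =ᶠ[𝓝 t] fun s => e p (Λ (γ s)) := by
    filter_upwards [hγ.continuousAt hΛ1] with s hs
    exact hs.2.symm
  have hη := (hηs.contDiffAt.differentiableAt (by simp)).hasDerivAt
  set η : ℝ → TangentSpace 𝓘(ℝ, E) p := fun s => Λ (γ s) with hηdef
  have hηt : η t = v := hΛv
  have hv0 : v ≠ 0 := by
    intro h2
    apply h0
    rw [← hev, h2]
    exact F.isExp.map_zero p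
  obtain ⟨z', h2, h3⟩ := m.speed hη (by rw [hηt]; exact hv0) (by rw [hηt]; exact hvD)
  have h4 : (mfderiv 𝓘(ℝ, ℝ) 𝓘(ℝ, E) γ t (1 : ℝ) : E) = dE e p (η t : E) (deriv η t : E) :=
    (congrArg (fun L : ℝ →L[ℝ] E => L 1) h1.mfderiv_eq).trans (mfderiv_exp_curve F.isExp p hη)
  have h5 : e p (η t) = γ t := by rw [hηt, hev]
  have h6 : nm (E := E) (e p (η t)) (dE (E := E) e p (η t) (deriv η t)) = ℓ := by
    rw [h5, ← hs]
    exact congrArg (nm (E := E) (γ t)) h4.symm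
  have h3 : ‖Qp (S (cc D) e0 ι (η t)) z'‖ = cc D * ℓ := h3.trans (congrArg (fun x => cc D * x) h6)
  have hcη : ContinuousAt η t := hη.continuousAt
  have h7 : ∀ᶠ s in 𝓝 t, ‖η s‖ < D :=
    hcη.norm.eventually_lt continuousAt_const (by rw [hηt]; exact hvD)
  have h8 := fs_le_of_deriv (z := fun s => S (cc D) e0 ι (η s)) (t := t) (z' := z')
    (Eventually.of_forall fun s => norm_S m.emb m.cpos.ne' _) h2 (C := C) (by rw [h3]; exact hC)
  filter_upwards [h8, nhdsWithin_le_nhds h7, nhdsWithin_le_nhds h1] with s h9 h10 h11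
  rw [h11, ← h5, m.fs_eq (by rw [hηt]; exact hvD.le) h10.le]
  exact h9

/-- the Fubini-Study distance on `M` -/
def Mod.dl (m : Mod e D p J e0 ι) (x y : M) : ℝ :=
  fs (ZZ m.rig.facts D p e0 ι x) (ZZ m.rig.facts D p e0 ι y)

theorem Mod.dl_def (m : Mod e D p J e0 ι) (x y : M) :
    m.dl x y = fs (ZZ m.rig.facts D p e0 ι x) (ZZ m.rig.facts D p e0 ι y) := rfl

theorem Mod.dl_self (m : Mod e D p J e0 ι) (x : M) : m.dl x x = 0 := fs_self (m.norm_ZZ x)

theorem Mod.dl_tri (m : Mod e D p J e0 ι) (x y z : M) : m.dl x z ≤ m.dl x y + m.dl y z :=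
  fs_triangle (m.norm_ZZ _) (m.norm_ZZ _) (m.norm_ZZ _)

theorem Mod.continuous_dl (m : Mod e D p J e0 ι) : Continuous fun q : M × M => m.dl q.1 q.2 :=
  m.continuous_fs

theorem Mod.dl_local (m : Mod e D p J e0 ι) {γ : ℝ → M} {t : ℝ}
    (hγ : ContMDiffAt 𝓘(ℝ, ℝ) 𝓘(ℝ, E) ∞ γ t) {ℓ : ℝ}
    (hs : nm (E := E) (γ t) (mfderiv 𝓘(ℝ, ℝ) 𝓘(ℝ, E) γ t (1 : ℝ)) = ℓ) (h0 : γ t ≠ p)
    (hD : dist p (γ t) < D) {C : ℝ} (hC : cc D * ℓ < C) :
    ∀ᶠ s in 𝓝[>] t, m.dl (γ t) (γ s) ≤ C * (s - t) := by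
  have h4 := m.local_le hγ hs h0 hD hC
  have h5 : 𝓝[>] t ≤ 𝓝[≠] t := nhdsWithin_mono t fun s hs => ne_of_gt hs
  filter_upwards [h5 h4, self_mem_nhdsWithin] with s h6 h7
  rwa [abs_of_pos (sub_pos.2 h7)] at h6

attribute [irreducible] Mod.dl

/-- distances along a minimal geodesic -/
theorem geo_dist (F : Facts e) {x y : M} {w : E} (hw : e x w = y) (hdw : nm x w = dist x y)
    {a b : ℝ} (ha : 0 ≤ a) (hab : a ≤ b) (hb : b ≤ 1) :
    dist (gam e x w a) (gam e x w b) = dist x y * (b - a) := by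
  have hcs : ContMDiff 𝓘(ℝ, ℝ) 𝓘(ℝ, E) ∞ (gam e x w) := contMDiff_gam F.isExp x w
  have hspeed : ∀ t, nm (E := E) (gam e x w t)
      (mfderiv 𝓘(ℝ, ℝ) 𝓘(ℝ, E) (gam e x w) t (1 : ℝ)) = dist x y := by
    intro t
    have h1 : nm (E := E) (gam e x w t) (mfderiv 𝓘(ℝ, ℝ) 𝓘(ℝ, E) (gam e x w) t (1 : ℝ)) =
        nm (E := E) (gam e x w t) (vel e x (w : E) t) :=
      congrArg (nm (E := E) (gam e x w t)) (mfderiv_gam F.isExp x w t)
    rw [h1]
    exact (nm_vel F x w t).trans hdw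
  have hself : ∀ a b, a ≤ b → dist (gam e x w a) (gam e x w b) ≤ dist x y * (b - a) :=
    fun a b hab => symm_dist_le_of_speed hab dist_nonneg
      (fun t _ => (hcs.contMDiffAt).of_le (by simp only [WithTop.one_le_coe, le_top]))
      fun t _ => (hspeed t).le
  have hc0 : gam e x w 0 = x := gam_zero F.isExp x w
  have hc1 : gam e x w 1 = y := by
    have : gam e x w 1 = e x ((1 : ℝ) • w : E) := rfl
    rw [this, one_smul, hw]
  refine le_antisymm (hself a b hab) ?_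
  have h1 := hself 0 a ha
  have h2 := hself b 1 hb
  have h3 := dist_triangle4 (gam e x w 0) (gam e x w a) (gam e x w b) (gam e x w 1)
  rw [hc0] at h1 h3
  rw [hc1] at h2 h3
  linarith

/-- a minimal geodesic starting outside the cut locus meets the cut locus at most once -/
theorem cut_not_lt {l : ℕ} (R : Rig e D l) {x y : M} (hx : dist p x < D) {w : E}
    (hw : e x w = y) (hdw : nm x w = dist x y) {t₁ t₂ : ℝ}
    (h1 : t₁ ∈ Icc (0 : ℝ) 1) (h2 : t₂ ∈ Icc (0 : ℝ) 1) (h3 : dist p (gam e x w t₁) = D)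
    (h4 : dist p (gam e x w t₂) = D) : ¬ t₁ < t₂ := by
  intro h5
  have F := R.facts
  have h6 := geo_dist F hw hdw h1.1 h5.le h2.2
  have hc0 : gam e x w 0 = x := gam_zero F.isExp x w
  rcases (R.diam (gam e x w t₁) (gam e x w t₂)).lt_or_eq with h7 | h7
  · obtain ⟨σ, hσ⟩ := R.symm p
    have hcut : ∀ y : M, dist p y = D → σ y = y := by
      intro y hy
      have h1 : σ (e p (symmL F p y)) = e p (-symmL F p y) := hσ _
      have h2 : e p (-symmL F p y) = e p (symmL F p y) :=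
        symm_antipode F R.pos R.closed p _ ((symmL_norm F p y).trans hy)
      rw [h2, symmL_exp F] at h1
      exact h1
    set w' : E := (t₂ - t₁) • vel e x w t₁ with hw'
    have h8 : nm (gam e x w t₁) w' = dist x y * (t₂ - t₁) := by
      rw [hw', nm_smul, abs_of_pos (sub_pos.2 h5)]
      have h9 : nm (gam e x w t₁) (vel e x w t₁) = dist x y := (nm_vel F x w t₁).trans hdw
      rw [h9, mul_comm]
    have hflow : ∀ s, gam e (gam e x w t₁) w' s = gam e x w (t₁ + s * (t₂ - t₁)) := by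
      intro s
      refine Eq.trans ?_ (gam_flow F x w t₁ (s * (t₂ - t₁)))
      show e (gam e x w t₁) (s • w' : E) =
        e (gam e x w t₁) ((s * (t₂ - t₁)) • vel e x w t₁ : E)
      rw [hw', smul_smul]
    have h9 : e (gam e x w t₁) (w' : E) = gam e x w t₂ := by
      have h10 := hflow 1
      have h11 : gam e (gam e x w t₁) w' 1 = e (gam e x w t₁) (w' : E) := by
        show e (gam e x w t₁) ((1 : ℝ) • w' : E) = _
        rw [one_smul]
      rw [← h11, h10]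
      congr 1
      ring
    have h10 := dist_geo_cut F R.pos R.inj R.diam hσ hcut (q := gam e x w t₁) (w := w')
      (by rw [h8, ← h6]; exact h7) h3 (by rw [h9]; exact h4) (-t₁ / (t₂ - t₁))
    rw [hflow] at h10
    have h11 : t₁ + -t₁ / (t₂ - t₁) * (t₂ - t₁) = 0 := by
      rw [div_mul_cancel₀ _ (sub_pos.2 h5).ne']
      ring
    rw [h11, hc0] at h10
    exact hx.ne h10
  · rw [h6] at h7
    have hℓD : dist x y ≤ D := R.diam x y
    have hpos := R.pos
    have h8 : t₁ = 0 := by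
      by_contra hne
      have h9 : 0 < t₁ := lt_of_le_of_ne h1.1 (Ne.symm hne)
      have h10 : t₂ - t₁ < 1 := by linarith [h2.2]
      have h11 : dist x y * (t₂ - t₁) < D := by
        have h12 : 0 < t₂ - t₁ := sub_pos.2 h5
        calc dist x y * (t₂ - t₁) ≤ D * (t₂ - t₁) := mul_le_mul_of_nonneg_right hℓD h12.le
          _ < D * 1 := mul_lt_mul_of_pos_left h10 hpos
          _ = D := mul_one D
      exact h11.ne h7
    rw [h8, hc0] at h3
    exact hx.ne h3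

theorem subsing_of_not_lt {Q : ℝ → Prop} (h : ∀ t₁ t₂ : ℝ, Q t₁ → Q t₂ → ¬ t₁ < t₂) :
    Set.Subsingleton {t : ℝ | Q t} := fun t₁ h1 t₂ h2 =>
  le_antisymm (not_lt.1 (h t₂ t₁ h2 h1)) (not_lt.1 (h t₁ t₂ h1 h2))

theorem Mod.le_of_lt (m : Mod e D p J e0 ι) {x : M} (hx : dist p x < D) (y : M) :
    m.dl x y ≤ cc D * dist x y := by
  classical
  have F := m.rig.facts
  rcases eq_or_ne x y with rfl | hxy
  · rw [m.dl_self x, dist_self, mul_zero]
  obtain ⟨w', hw', hdw'⟩ := F.hopfRinow x y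
  obtain ⟨w, hw, hdw⟩ : ∃ w : E, e x w = y ∧ nm x w = dist x y := ⟨w', hw', hdw'.symm⟩
  have hc0 : gam e x w 0 = x := gam_zero F.isExp x w
  have hc1 : gam e x w 1 = y := by
    have : gam e x w 1 = e x ((1 : ℝ) • w : E) := rfl
    rw [this, one_smul, hw]
  have hcs : ContMDiff 𝓘(ℝ, ℝ) 𝓘(ℝ, E) ∞ (gam e x w) := contMDiff_gam F.isExp x w
  have hcc : Continuous (gam e x w) := hcs.continuous
  have hℓ0 : 0 < dist x y := dist_pos.2 hxy
  have hspeed : ∀ t, nm (E := E) (gam e x w t)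
      (mfderiv 𝓘(ℝ, ℝ) 𝓘(ℝ, E) (gam e x w) t (1 : ℝ)) = dist x y := by
    intro t
    have h1 : nm (E := E) (gam e x w t) (mfderiv 𝓘(ℝ, ℝ) 𝓘(ℝ, E) (gam e x w) t (1 : ℝ)) =
        nm (E := E) (gam e x w t) (vel e x (w : E) t) :=
      congrArg (nm (E := E) (gam e x w t)) (mfderiv_gam F.isExp x w t)
    rw [h1]
    exact (nm_vel F x w t).trans hdw
  have hK : Set.Subsingleton {t : ℝ | t ∈ Icc (0 : ℝ) 1 ∧ dist p (gam e x w t) = D} :=
    subsing_of_not_lt fun t₁ t₂ h1 h2 => cut_not_lt m.rig hx hw hdw h1.1 h2.1 h1.2 h2.2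
  have hP : Set.Subsingleton {t : ℝ | t ∈ Icc (0 : ℝ) 1 ∧ gam e x w t = p} :=
    subsing_of_not_lt fun t₁ t₂ h1 h2 h5 => by
      have h6 := geo_dist F hw hdw h1.1.1 h5.le h2.1.2
      rw [h1.2, h2.2, dist_self] at h6
      exact (mul_pos hℓ0 (sub_pos.2 h5)).ne h6
  have hfin := hK.finite.union hP.finite
  have hcont : Continuous fun q : ℝ × ℝ => m.dl (gam e x w q.1) (gam e x w q.2) :=
    m.continuous_dl.comp ((hcc.comp continuous_fst).prodMk (hcc.comp continuous_snd))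
  have h1 := lip_finite (δ := fun s t => m.dl (gam e x w s) (gam e x w t))
    (C := cc D * dist x y) (a := 0) (b := 1) hfin.toFinset zero_le_one
    (fun t => m.dl_self _) (fun r s t => m.dl_tri _ _ _) hcont
    (fun t ht htB C' hC' => by
      rw [Set.Finite.mem_toFinset, Set.mem_union, not_or] at htB
      have ht' : t ∈ Icc (0 : ℝ) 1 := ⟨ht.1.le, ht.2.le⟩
      have h2 : dist p (gam e x w t) < D :=
        lt_of_le_of_ne (m.rig.diam _ _) fun h => htB.1 ⟨ht', h⟩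
      have h3 : gam e x w t ≠ p := fun h => htB.2 ⟨ht', h⟩
      exact m.dl_local (γ := gam e x w) (t := t) hcs.contMDiffAt (hspeed t) h3 h2 hC')
  rw [sub_zero, mul_one, hc0, hc1] at h1
  exact h1

theorem Mod.le (m : Mod e D p J e0 ι) (x y : M) : m.dl x y ≤ cc D * dist x y := by
  rcases (m.rig.diam p x).lt_or_eq with h | h
  · exact m.le_of_lt h y
  · obtain ⟨v, hvx, hvD⟩ : ∃ v : TangentSpace 𝓘(ℝ, E) p, e p v = x ∧ ‖v‖ = D :=
      ⟨symmL m.rig.facts p x, symmL_exp m.rig.facts p x, (symmL_norm m.rig.facts p x).trans h⟩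
    have hc : Continuous (e p) := (contMDiff_exp_fiber m.rig.facts.isExp p).continuous
    have hcs : Continuous fun s : ℝ => e p (s • v) :=
      hc.comp (continuous_id.smul continuous_const)
    have hc1 : Continuous fun s : ℝ => m.dl (e p (s • v)) y :=
      m.continuous_dl.comp (hcs.prodMk continuous_const)
    have hcl : IsClosed {s : ℝ | m.dl (e p (s • v)) y ≤ cc D * dist (e p (s • v)) y} :=
      isClosed_le hc1 (continuous_const.mul (hcs.dist continuous_const))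
    have hsub : Ioo (0 : ℝ) 1 ⊆ {s : ℝ | m.dl (e p (s • v)) y ≤
        cc D * dist (e p (s • v)) y} := by
      intro s hs
      refine m.le_of_lt ?_ y
      have hlt : ‖s • v‖ < D := by
        rw [norm_smul, hvD, Real.norm_of_nonneg hs.1.le]
        have := m.rig.pos
        nlinarith [hs.2]
      rw [m.rig.inj p _ hlt.le]
      exact hlt
    have h2 := closure_minimal hsub hcl
    rw [closure_Ioo zero_ne_one] at h2
    have h3 : m.dl (e p ((1 : ℝ) • v)) y ≤ cc D * dist (e p ((1 : ℝ) • v)) y :=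
      h2 (right_mem_Icc.2 zero_le_one)
    rw [one_smul, hvx] at h3
    exact h3

end

end Vale.Agent.P231.FS
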