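import Vale.Agent.P231.H512.FS5

/-! P231: the map to the complex projective space does not decrease distances. -/

set_option maxSynthPendingDepth 3
set_option linter.unusedSectionVars false

open Bundle Manifold Set Filter Module
open scoped ContDiff Manifold Topology ComplexConjugate

namespace Vale.Agent.P231.FS

noncomputable section

section pure

variable {H : Type*} [NormedAddCommGroup H] [InnerProductSpace ℂ H]

/-- the geodesic -/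
def gd (z₀ z₂ : H) (t : ℝ) : H := Real.cos t • z₀ + Real.sin t • z₂

theorem inner_gd {z₀ z₂ : H} (h0 : ‖z₀‖ = 1) (h2 : ‖z₂‖ = 1) (h : (inner ℂ z₀ z₂ : ℂ) = 0)
    (s t : ℝ) : (inner ℂ (gd z₀ z₂ s) (gd z₀ z₂ t) : ℂ) = (Real.cos (s - t) : ℝ) := by
  have h' : (inner ℂ z₂ z₀ : ℂ) = 0 := by
    rw [← inner_conj_symm, h]
    simp
  have h00 : (inner ℂ z₀ z₀ : ℂ) = 1 := by
    rw [inner_self_eq_norm_sq_to_K, h0]
    simp
  have h22 : (inner ℂ z₂ z₂ : ℂ) = 1 := by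
    rw [inner_self_eq_norm_sq_to_K, h2]
    simp
  unfold gd
  rw [inner_add_left, inner_add_right, inner_add_right, inn_rl, inn_rr, inn_rl, inn_rr, inn_rl,
    inn_rr, inn_rl, inn_rr, h, h', h00, h22, Real.cos_sub]
  push_cast
  ring

theorem norm_gd {z₀ z₂ : H} (h0 : ‖z₀‖ = 1) (h2 : ‖z₂‖ = 1) (h : (inner ℂ z₀ z₂ : ℂ) = 0)
    (t : ℝ) : ‖gd z₀ z₂ t‖ = 1 := by
  have h1 := inner_gd h0 h2 h t t
  rw [sub_self, Real.cos_zero] at h1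
  exact (pow_eq_one_iff_of_nonneg (norm_nonneg _) two_ne_zero).1 (norm_sq_of_inner h1)

theorem fs_gd {z₀ z₂ : H} (h0 : ‖z₀‖ = 1) (h2 : ‖z₂‖ = 1) (h : (inner ℂ z₀ z₂ : ℂ) = 0)
    {s t : ℝ} (hst : |s - t| ≤ Real.pi / 2) : fs (gd z₀ z₂ s) (gd z₀ z₂ t) = |s - t| := by
  unfold fs
  rw [inner_gd h0 h2 h, Complex.norm_real, ← Real.cos_abs, Real.norm_of_nonneg, Real.arccos_cos]
  · exact abs_nonneg _
  · linarith [Real.pi_pos]
  · exact Real.cos_nonneg_of_neg_pi_div_two_le_of_le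
      (by linarith [Real.pi_pos, abs_nonneg (s - t)]) hst

/-- geodesics exist -/
theorem exists_gd {z₀ w : H} (h0 : ‖z₀‖ = 1) (hw : ‖w‖ = 1) (hpos : 0 < fs z₀ w) :
    ∃ z₂ : H, ‖z₂‖ = 1 ∧ (inner ℂ z₀ z₂ : ℂ) = 0 ∧ ∃ μ : ℂ, ‖μ‖ = 1 ∧
      gd z₀ z₂ (fs z₀ w) = μ • w := by
  obtain ⟨μ, hμ, hμ2⟩ : ∃ μ : ℂ, ‖μ‖ = 1 ∧ μ * (inner ℂ z₀ w : ℂ) = ‖(inner ℂ z₀ w : ℂ)‖ := by
    rcases eq_or_ne (inner ℂ z₀ w : ℂ) 0 with h | h
    · exact ⟨1, by simp, by rw [h]; simp⟩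
    · refine ⟨conj (inner ℂ z₀ w : ℂ) / ‖(inner ℂ z₀ w : ℂ)‖, ?_, ?_⟩
      · rw [norm_div, RCLike.norm_conj, Complex.norm_real, norm_norm,
          div_self (norm_ne_zero_iff.2 h)]
      · have h4 : (‖(inner ℂ z₀ w : ℂ)‖ : ℂ) ≠ 0 := by
          exact_mod_cast norm_ne_zero_iff.2 h
        have h3 : conj (inner ℂ z₀ w : ℂ) * (inner ℂ z₀ w : ℂ) =
            (‖(inner ℂ z₀ w : ℂ)‖ : ℂ) ^ 2 := by
          rw [mul_comm, Complex.mul_conj, Complex.normSq_eq_norm_sq]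
          push_cast
          rfl
        rw [div_mul_eq_mul_div, h3]
        field_simp
  set θ := fs z₀ w with hθ
  have hsin : 0 < Real.sin θ := Real.sin_pos_of_pos_of_lt_pi hpos (by
    have := fs_le z₀ w
    linarith [Real.pi_pos])
  have hw' : ‖μ • w‖ = 1 := by rw [norm_smul, hμ, hw, mul_one]
  have h1 : (inner ℂ z₀ (μ • w) : ℂ) = (Real.cos θ : ℝ) := by
    rw [inner_smul_right, hμ2, ← cos_fs h0 hw]
  have h2 : Qp z₀ (μ • w) = μ • w - Real.cos θ • z₀ := by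
    unfold Qp
    rw [h1, Complex.coe_smul]
  have h3 : ‖Qp z₀ (μ • w)‖ = Real.sin θ := by
    rw [← sin_fs h0 hw', fs_smul_right _ _ hμ]
  refine ⟨(Real.sin θ)⁻¹ • Qp z₀ (μ • w), ?_, ?_, μ, hμ, ?_⟩
  · rw [norm_smul, h3, norm_inv, Real.norm_of_nonneg hsin.le, inv_mul_cancel₀ hsin.ne']
  · rw [inn_rr, h2, inner_sub_right, inn_rr, h1, inner_self_eq_norm_sq_to_K, h0]
    simp
  · unfold gd
    rw [smul_smul, mul_inv_cancel₀ hsin.ne', one_smul, h2]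
    abel

end pure

open Vale.Agent.P234 Vale.Agent.P231 Vale.Agent.P231.H703 Vale.Agent.P231.H775
  Vale.Agent.P231.H512

variable {E : Type*} [NormedAddCommGroup E] [NormedSpace ℝ E] [FiniteDimensional ℝ E]
  {M : Type*} [MetricSpace M] [ChartedSpace E M]
  [RiemannianBundle (fun x : M => TangentSpace 𝓘(ℝ, E) x)]
  [IsManifold 𝓘(ℝ, E) ∞ M]
  [IsContMDiffRiemannianBundle 𝓘(ℝ, E) ∞ E (fun x : M => TangentSpace 𝓘(ℝ, E) x)]
  {e : ∀ x : M, TangentSpace 𝓘(ℝ, E) x → M}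
  [CompactSpace M] [ConnectedSpace M] [IsRiemannianManifold 𝓘(ℝ, E) M]
  {H : Type*} [NormedAddCommGroup H] [InnerProductSpace ℂ H]
  {D : ℝ} {p : M} {J : TangentSpace 𝓘(ℝ, E) p →ₗ[ℝ] TangentSpace 𝓘(ℝ, E) p} {e0 : H}
  {ι : TangentSpace 𝓘(ℝ, E) p →L[ℝ] H}

theorem Mod.dl_inj (m : Mod e D p J e0 ι) {x y : M} (h : m.dl x y = 0) : x = y :=
  m.inj ((m.dl_def x y).symm.trans h)

theorem Mod.dl_nonneg (m : Mod e D p J e0 ι) (x y : M) : 0 ≤ m.dl x y := by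
  rw [m.dl_def]
  exact fs_nonneg _ _

/-- curves that are continuous for the Fubini-Study distance are continuous -/
theorem Mod.continuous_of_dl (m : Mod e D p J e0 ι) {X : ℝ → M}
    (h : ∀ t, Tendsto (fun s => m.dl (X t) (X s)) (𝓝 t) (𝓝 0)) : Continuous X := by
  rw [continuous_iff_continuousAt]
  intro t
  rw [ContinuousAt, tendsto_nhds]
  intro U hU hxU
  have hK : IsCompact Uᶜ := hU.isClosed_compl.isCompact
  have hcont : Continuous fun y => m.dl (X t) y :=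
    m.continuous_dl.comp (continuous_const.prodMk continuous_id)
  rcases (Uᶜ).eq_empty_or_nonempty with he | hne
  · refine Eventually.of_forall fun s => ?_
    rw [compl_empty_iff.1 he]
    trivial
  · obtain ⟨y, hy, hmin⟩ := hK.exists_isMinOn hne hcont.continuousOn
    have h1 : 0 < m.dl (X t) y := by
      refine lt_of_le_of_ne (m.dl_nonneg _ _) fun h2 => ?_
      exact hy (m.dl_inj h2.symm ▸ hxU)
    filter_upwards [(h t).eventually_lt_const h1] with s hs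
    by_contra hcon
    exact absurd (hmin hcon) (not_le.2 hs)

/-- the curve `v(t)` with `S (v t) ~ z(t)` -/
def vv (c : ℝ) (J : TangentSpace 𝓘(ℝ, E) p →ₗ[ℝ] TangentSpace 𝓘(ℝ, E) p) (α₀ α₂ : ℂ)
    (y₀ y₂ : TangentSpace 𝓘(ℝ, E) p) (t : ℝ) : TangentSpace 𝓘(ℝ, E) p :=
  lg c (‖Real.cos t • α₀ + Real.sin t • α₂‖ ^ 2) •
    ((conj (Real.cos t • α₀ + Real.sin t • α₂)).re • (Real.cos t • y₀ + Real.sin t • y₂) +
      (conj (Real.cos t • α₀ + Real.sin t • α₂)).im •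
        J (Real.cos t • y₀ + Real.sin t • y₂))

theorem contDiffAt_vv {c : ℝ} (hc : c ≠ 0)
    (J : TangentSpace 𝓘(ℝ, E) p →ₗ[ℝ] TangentSpace 𝓘(ℝ, E) p) (α₀ α₂ : ℂ)
    (y₀ y₂ : TangentSpace 𝓘(ℝ, E) p) {t : ℝ}
    (h0 : 0 < ‖Real.cos t • α₀ + Real.sin t • α₂‖)
    (h1 : ‖Real.cos t • α₀ + Real.sin t • α₂‖ < 1) :
    ContDiffAt ℝ ∞ (vv c J α₀ α₂ y₀ y₂) t := by
  have : FiniteDimensional ℝ (TangentSpace 𝓘(ℝ, E) p) := inferInstanceAs (FiniteDimensional ℝ E)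
  have hα : ContDiff ℝ ∞ fun t : ℝ => Real.cos t • α₀ + Real.sin t • α₂ :=
    (Real.contDiff_cos.smul contDiff_const).add (Real.contDiff_sin.smul contDiff_const)
  have hy : ContDiff ℝ ∞ fun t : ℝ => Real.cos t • y₀ + Real.sin t • y₂ :=
    (Real.contDiff_cos.smul contDiff_const).add (Real.contDiff_sin.smul contDiff_const)
  have hJ : ContDiff ℝ ∞ fun t : ℝ => J (Real.cos t • y₀ + Real.sin t • y₂) :=
    (LinearMap.toContinuousLinearMap J).contDiff.comp hy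
  have hre : ContDiff ℝ ∞ fun t : ℝ => (conj (Real.cos t • α₀ + Real.sin t • α₂)).re :=
    Complex.reCLM.contDiff.comp (Complex.conjCLE.contDiff.comp hα)
  have him : ContDiff ℝ ∞ fun t : ℝ => (conj (Real.cos t • α₀ + Real.sin t • α₂)).im :=
    Complex.imCLM.contDiff.comp (Complex.conjCLE.contDiff.comp hα)
  have hn : ContDiff ℝ ∞ fun t : ℝ => ‖Real.cos t • α₀ + Real.sin t • α₂‖ ^ 2 := hα.norm_sq ℝ
  have hl : ContDiffAt ℝ ∞ (fun t : ℝ => lg c (‖Real.cos t • α₀ + Real.sin t • α₂‖ ^ 2)) t :=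
    (contDiffAt_lg c hc (by positivity) (by nlinarith)).comp t hn.contDiffAt
  exact hl.smul ((hre.smul hy).add (him.smul hJ)).contDiffAt

/-- properties of the lifted curve -/
theorem Mod.vv_spec (m : Mod e D p J e0 ι) {z₀ z₂ : H} (h0 : ‖z₀‖ = 1) (h2 : ‖z₂‖ = 1)
    (h : (inner ℂ z₀ z₂ : ℂ) = 0) {α₀ α₂ : ℂ} {y₀ y₂ : TangentSpace 𝓘(ℝ, E) p}
    (hz₀ : z₀ = α₀ • e0 + ι y₀) (hz₂ : z₂ = α₂ • e0 + ι y₂) {t : ℝ}
    (hα : Real.cos t • α₀ + Real.sin t • α₂ ≠ 0) (hy : Real.cos t • y₀ + Real.sin t • y₂ ≠ 0) :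
    ‖Real.cos t • α₀ + Real.sin t • α₂‖ < 1 ∧
    ‖vv (cc D) J α₀ α₂ y₀ y₂ t‖ < D ∧ vv (cc D) J α₀ α₂ y₀ y₂ t ≠ 0 ∧
      ∃ μ : ℂ, ‖μ‖ = 1 ∧ S (cc D) e0 ι (vv (cc D) J α₀ α₂ y₀ y₂ t) = μ • gd z₀ z₂ t := by
  have hgd : gd z₀ z₂ t = (Real.cos t • α₀ + Real.sin t • α₂) • e0 +
      ι (Real.cos t • y₀ + Real.sin t • y₂) := by
    unfold gd
    rw [hz₀, hz₂, map_add, map_smul, map_smul, smul_add, smul_add, add_smul, smul_assoc,
      smul_assoc]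
    abel
  have h1 := norm_gd h0 h2 h t
  rw [hgd] at h1
  set α := Real.cos t • α₀ + Real.sin t • α₂ with hαd
  set y := Real.cos t • y₀ + Real.sin t • y₂ with hyd
  have h3 := m.emb.norm_sq α y
  rw [h1, one_pow] at h3
  have hc := m.cpos
  obtain ⟨h4, h5⟩ := S_log m.emb hc hα hy h3.symm
  have hα0 : 0 < ‖α‖ := norm_pos_iff.2 hα
  have hy0 : 0 < ‖y‖ := norm_pos_iff.2 hy
  have hα1 : ‖α‖ < 1 := by nlinarith
  have hv : vv (cc D) J α₀ α₂ y₀ y₂ t =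
      lg (cc D) (‖α‖ ^ 2) • ((conj α).re • y + (conj α).im • J y) := rfl
  rw [hv]
  refine ⟨hα1, ?_, ?_, conj α / ‖α‖, ?_, ?_⟩
  · rw [h4, div_lt_iff₀ hc, mul_comm D, m.ccD, Real.arccos_lt_pi_div_two]
    exact hα0
  · rw [← norm_ne_zero_iff, h4]
    exact (div_pos (Real.arccos_pos.2 hα1) hc).ne'
  · rw [norm_div, RCLike.norm_conj, Complex.norm_real, norm_norm, div_self hα0.ne']
  · rw [h5, hgd]

/-- good times are open -/
theorem good_open {α₀ α₂ : ℂ} {y₀ y₂ : TangentSpace 𝓘(ℝ, E) p} {t : ℝ}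
    (hα : Real.cos t • α₀ + Real.sin t • α₂ ≠ 0) (hy : Real.cos t • y₀ + Real.sin t • y₂ ≠ 0) :
    ∀ᶠ s : ℝ in 𝓝 t, Real.cos s • α₀ + Real.sin s • α₂ ≠ 0 ∧
      Real.cos s • y₀ + Real.sin s • y₂ ≠ 0 := by
  have h1 : Continuous fun s : ℝ => Real.cos s • α₀ + Real.sin s • α₂ :=
    (Real.continuous_cos.smul continuous_const).add (Real.continuous_sin.smul continuous_const)
  have h2 : Continuous fun s : ℝ => Real.cos s • y₀ + Real.sin s • y₂ :=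
    (Real.continuous_cos.smul continuous_const).add (Real.continuous_sin.smul continuous_const)
  exact (h1.continuousAt.eventually_ne hα).and (h2.continuousAt.eventually_ne hy)

/-- the lifted curve has constant speed -/
theorem Mod.vv_speed (m : Mod e D p J e0 ι) {z₀ z₂ : H} (h0 : ‖z₀‖ = 1) (h2 : ‖z₂‖ = 1)
    (h : (inner ℂ z₀ z₂ : ℂ) = 0) {α₀ α₂ : ℂ} {y₀ y₂ : TangentSpace 𝓘(ℝ, E) p}
    (hz₀ : z₀ = α₀ • e0 + ι y₀) (hz₂ : z₂ = α₂ • e0 + ι y₂) {t : ℝ}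
    (hα : Real.cos t • α₀ + Real.sin t • α₂ ≠ 0) (hy : Real.cos t • y₀ + Real.sin t • y₂ ≠ 0) :
    ContMDiffAt 𝓘(ℝ, ℝ) 𝓘(ℝ, E) 1 (fun s => e p (vv (cc D) J α₀ α₂ y₀ y₂ s)) t ∧
    nm (E := E) (e p (vv (cc D) J α₀ α₂ y₀ y₂ t))
      (mfderiv 𝓘(ℝ, ℝ) 𝓘(ℝ, E) (fun s => e p (vv (cc D) J α₀ α₂ y₀ y₂ s)) t (1 : ℝ)) =
        1 / cc D := by
  have hc := m.cpos
  obtain ⟨h1, h3, h4, μ, hμ, h5⟩ := m.vv_spec h0 h2 h hz₀ hz₂ hα hy
  have hs := contDiffAt_vv hc.ne' J α₀ α₂ y₀ y₂ (norm_pos_iff.2 hα) h1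
  generalize hv : vv (cc D) J α₀ α₂ y₀ y₂ = v at *
  have hη : HasDerivAt v (deriv v t) t := (hs.differentiableAt (by simp)).hasDerivAt
  obtain ⟨z', h6, h7⟩ := m.speed hη h4 h3
  have h8 : ∀ᶠ s in 𝓝 t, fs (S (cc D) e0 ι (v t)) (S (cc D) e0 ι (v s)) = |s - t| := by
    have h9 : ∀ᶠ s : ℝ in 𝓝 t, |t - s| < Real.pi / 2 := by
      have h10 : ContinuousAt (fun s : ℝ => |t - s|) t :=
        (continuous_const.sub continuous_id).abs.continuousAt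
      refine h10.eventually_lt continuousAt_const ?_
      simp [Real.pi_pos]
    filter_upwards [good_open hα hy, h9] with s hs1 hs2
    obtain ⟨-, -, -, ν, hν, h10⟩ := m.vv_spec h0 h2 h hz₀ hz₂ hs1.1 hs1.2
    rw [hv] at h10
    rw [h5, h10, fs_smul_left _ _ hμ, fs_smul_right _ _ hν, fs_gd h0 h2 h hs2.le, abs_sub_comm]
  have h9 := norm_Qp_eq_one (z := fun s => S (cc D) e0 ι (v s)) (t := t)
    (Eventually.of_forall fun s => norm_S m.emb hc.ne' _) h6 h8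
  refine ⟨?_, ?_⟩
  · have h10 : ContMDiffAt 𝓘(ℝ, ℝ) 𝓘(ℝ, TangentSpace 𝓘(ℝ, E) p) 1 v t :=
      (hs.of_le (by simp only [WithTop.one_le_coe, le_top])).contMDiffAt
    exact ((contMDiff_exp_fiber m.rig.facts.isExp p).contMDiffAt.of_le
      (by simp only [WithTop.one_le_coe, le_top])).comp t h10
  · have h10 : (mfderiv 𝓘(ℝ, ℝ) 𝓘(ℝ, E) (fun s => e p (v s)) t (1 : ℝ) : E) =
        dE e p (v t : E) (deriv v t : E) := mfderiv_exp_curve m.rig.facts.isExp p hη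
    have h11 : nm (E := E) (e p (v t)) (mfderiv 𝓘(ℝ, ℝ) 𝓘(ℝ, E) (fun s => e p (v s)) t (1 : ℝ)) =
        nm (E := E) (e p (v t)) (dE (E := E) e p (v t) (deriv v t)) :=
      congrArg (nm (E := E) (e p (v t))) h10
    rw [h11, eq_div_iff hc.ne', mul_comm]
    exact h7.symm.trans h9

/-- local estimate for the lifted curve -/
theorem Mod.local_ge (m : Mod e D p J e0 ι) {z₀ z₂ : H} (h0 : ‖z₀‖ = 1) (h2 : ‖z₂‖ = 1)
    (h : (inner ℂ z₀ z₂ : ℂ) = 0) {α₀ α₂ : ℂ} {y₀ y₂ : TangentSpace 𝓘(ℝ, E) p}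
    (hz₀ : z₀ = α₀ • e0 + ι y₀) (hz₂ : z₂ = α₂ • e0 + ι y₂) {X : ℝ → M}
    (hX : ∀ t, ∃ μ : ℂ, ‖μ‖ = 1 ∧ ZZ m.rig.facts D p e0 ι (X t) = μ • gd z₀ z₂ t) {t : ℝ}
    (hα : Real.cos t • α₀ + Real.sin t • α₂ ≠ 0) (hy : Real.cos t • y₀ + Real.sin t • y₂ ≠ 0) :
    ∀ᶠ s in 𝓝[>] t, dist (X t) (X s) ≤ 1 / cc D * (s - t) := by
  have hc := m.cpos
  have hXv : ∀ s, Real.cos s • α₀ + Real.sin s • α₂ ≠ 0 ∧
      Real.cos s • y₀ + Real.sin s • y₂ ≠ 0 → X s = e p (vv (cc D) J α₀ α₂ y₀ y₂ s) := by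
    intro s hs
    obtain ⟨-, h3, -, μ, hμ, h5⟩ := m.vv_spec h0 h2 h hz₀ hz₂ hs.1 hs.2
    obtain ⟨ν, hν, h6⟩ := hX s
    obtain ⟨ρ, hρ, h7⟩ := m.phase h3.le
    refine m.inj ?_
    rw [h6, h7, h5, smul_smul, fs_smul_left _ _ hν,
      fs_smul_right _ _ (by rw [norm_mul, hμ, hρ, mul_one]), fs_self (norm_gd h0 h2 h s)]
  obtain ⟨ε, hε, hball⟩ := Metric.eventually_nhds_iff.1 (good_open hα hy)
  have h3 : ∀ᶠ s in 𝓝[>] t, s < t + ε := nhdsWithin_le_nhds (eventually_lt_nhds (by linarith))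
  filter_upwards [h3, self_mem_nhdsWithin] with s hs1 hs2
  have hs2' : t < s := hs2
  have hgood : ∀ r ∈ Icc t s, Real.cos r • α₀ + Real.sin r • α₂ ≠ 0 ∧
      Real.cos r • y₀ + Real.sin r • y₂ ≠ 0 := fun r hr => hball (by
    rw [Real.dist_eq, abs_of_nonneg (by linarith [hr.1])]
    linarith [hr.2])
  rw [hXv t (hgood t (left_mem_Icc.2 hs2'.le)), hXv s (hgood s (right_mem_Icc.2 hs2'.le))]
  exact symm_dist_le_of_speed (c := fun s => e p (vv (cc D) J α₀ α₂ y₀ y₂ s)) hs2'.le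
    (by positivity)
    (fun r hr => (m.vv_speed h0 h2 h hz₀ hz₂ (hgood r hr).1 (hgood r hr).2).1)
    fun r hr => (m.vv_speed h0 h2 h hz₀ hz₂ (hgood r hr).1 (hgood r hr).2).2.le

end

end Vale.Agent.P231.FS
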