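import Vale.Agent.P231.H512.FS6

/-! P231: the isometry with the complex projective space. -/

set_option maxSynthPendingDepth 3
set_option linter.unusedSectionVars false

open Bundle Manifold Set Filter Module
open scoped ContDiff Manifold Topology ComplexConjugate

namespace Vale.Agent.P231.FS

noncomputable section

open Vale.Agent.P234 Vale.Agent.P231 Vale.Agent.P231.H703 Vale.Agent.P231.H775
  Vale.Agent.P231.H512

variable {E : Type*} [NormedAddCommGroup E] [NormedSpace ℝ E] [FiniteDimensional ℝ E]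
  {M : Type*} [MetricSpace M] [ChartedSpace E M]
  [RiemannianBundle (fun x : M => TangentSpace 𝓘(ℝ, E) x)]
  [IsManifold 𝓘(ℝ, E) ∞ M]
  [IsContMDiffRiemannianBundle 𝓘(ℝ, E) ∞ E (fun x : M => TangentSpace 𝓘(ℝ, E) x)]
  {e : ∀ x : M, TangentSpace 𝓘(ℝ, E) x → M}
  [CompactSpace M] [ConnectedSpace M] [IsRiemannianManifold 𝓘(ℝ, E) M]
  {H : Type*} [NormedAddCommGroup H] [InnerProductSpace ℂ H]
  {D : ℝ} {p : M} {J : TangentSpace 𝓘(ℝ, E) p →ₗ[ℝ] TangentSpace 𝓘(ℝ, E) p} {e0 : H}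
  {ι : TangentSpace 𝓘(ℝ, E) p →L[ℝ] H}

theorem Mod.ge_of_lt (m : Mod e D p J e0 ι) {x : M} (hx : dist p x < D) (y : M) :
    dist x y ≤ 1 / cc D * m.dl x y := by
  classical
  have hc := m.cpos
  rcases (m.dl_nonneg x y).eq_or_lt with hθ | hθ
  · rw [← hθ, m.dl_inj hθ.symm, dist_self, mul_zero]
  obtain ⟨z₂, h2, h, μ, hμ, hend⟩ := exists_gd (m.norm_ZZ x) (m.norm_ZZ y)
    (by rw [← m.dl_def]; exact hθ)
  rw [← m.dl_def] at hend
  set z₀ := ZZ m.rig.facts D p e0 ι x with hz₀d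
  have h0 : ‖z₀‖ = 1 := m.norm_ZZ x
  obtain ⟨α₀, y₀, hz₀⟩ := m.emb.surj z₀
  obtain ⟨α₂, y₂, hz₂⟩ := m.emb.surj z₂
  have hX : ∀ t, ∃ x' : M, ∃ μ : ℂ, ‖μ‖ = 1 ∧ ZZ m.rig.facts D p e0 ι x' = μ • gd z₀ z₂ t :=
    fun t => m.surj (norm_gd h0 h2 h t)
  choose X hX using hX
  have hdl : ∀ s t, m.dl (X s) (X t) = fs (gd z₀ z₂ s) (gd z₀ z₂ t) := by
    intro s t
    obtain ⟨μ, hμ, h3⟩ := hX s
    obtain ⟨ν, hν, h4⟩ := hX t
    rw [m.dl_def, h3, h4, fs_smul_left _ _ hμ, fs_smul_right _ _ hν]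
  have hX0 : X 0 = x := by
    obtain ⟨ν, hν, h4⟩ := hX 0
    refine m.inj ?_
    have h5 : gd z₀ z₂ 0 = z₀ := by simp [gd]
    rw [h4, h5, fs_smul_left _ _ hν, ← hz₀d, fs_self h0]
  have hXθ : X (m.dl x y) = y := by
    obtain ⟨ν, hν, h4⟩ := hX (m.dl x y)
    refine m.inj ?_
    rw [h4, hend, fs_smul_left _ _ hν, fs_smul_left _ _ hμ, fs_self (m.norm_ZZ y)]
  have hXc : Continuous X := by
    refine m.continuous_of_dl fun t => ?_
    have h3 : Tendsto (fun s : ℝ => |t - s|) (𝓝 t) (𝓝 0) := by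
      have h10 : ContinuousAt (fun s : ℝ => |t - s|) t :=
        (continuous_const.sub continuous_id).abs.continuousAt
      have h11 := h10.tendsto
      simp only [sub_self, abs_zero] at h11
      exact h11
    refine h3.congr' ?_
    filter_upwards [h3.eventually_lt_const (show (0 : ℝ) < Real.pi / 2 by positivity)] with s hs
    rw [hdl, fs_gd h0 h2 h hs.le]
  -- bad times
  have hinn : (inner ℂ e0 z₀ : ℂ) = α₀ := by
    rw [hz₀, inner_add_right, inner_smul_right, m.emb.e00, m.emb.orth, mul_one, add_zero]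
  have hα₀ : α₀ ≠ 0 := by
    rw [← hinn]
    have h3 : (inner ℂ e0 z₀ : ℂ) = Real.cos (cc D * ‖symmL m.rig.facts p x‖) :=
      inner_e0_S m.emb (cc D) _
    rw [h3, symmL_norm]
    have h4 : 0 < Real.cos (cc D * dist p x) := by
      refine Real.cos_pos_of_mem_Ioo ⟨?_, ?_⟩
      · have : 0 ≤ cc D * dist p x := by positivity
        linarith [Real.pi_pos]
      · rw [← m.ccD]
        exact mul_lt_mul_of_pos_left hx hc
    exact_mod_cast h4.ne'
  have hθle : m.dl x y ≤ Real.pi / 2 := by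
    rw [m.dl_def]
    exact fs_le _ _
  have hK : Set.Subsingleton {t : ℝ | t ∈ Icc (0 : ℝ) (m.dl x y) ∧
      Real.cos t • α₀ + Real.sin t • α₂ = 0} :=
    subsing_of_not_lt fun t₁ t₂ h3 h4 h5 => by
      have e1 := h3.2
      have e2 := h4.2
      have h6 : Real.sin (t₂ - t₁) • α₀ = 0 := by
        have h7 : Real.sin t₂ • (Real.cos t₁ • α₀ + Real.sin t₁ • α₂) -
            Real.sin t₁ • (Real.cos t₂ • α₀ + Real.sin t₂ • α₂) = 0 := by
          rw [e1, e2, smul_zero, smul_zero, sub_zero]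
        rw [← h7, Real.sin_sub]
        module
      have h8 : 0 < Real.sin (t₂ - t₁) := Real.sin_pos_of_pos_of_lt_pi (sub_pos.2 h5) (by
        linarith [h3.1.1, h4.1.2, Real.pi_pos])
      rcases smul_eq_zero.1 h6 with h9 | h9
      · exact h8.ne' h9
      · exact hα₀ h9
  have hP : Set.Subsingleton {t : ℝ | t ∈ Icc (0 : ℝ) (m.dl x y) ∧
      Real.cos t • y₀ + Real.sin t • y₂ = 0} :=
    subsing_of_not_lt fun t₁ t₂ h3 h4 h5 => by
      have hg : ∀ t, Real.cos t • y₀ + Real.sin t • y₂ = 0 →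
          gd z₀ z₂ t = (Real.cos t • α₀ + Real.sin t • α₂) • e0 := by
        intro t ht
        unfold gd
        rw [hz₀, hz₂]
        have h6 : ι (Real.cos t • y₀ + Real.sin t • y₂) = 0 := by rw [ht, map_zero]
        rw [map_add, map_smul, map_smul] at h6
        rw [smul_add, smul_add, add_smul, smul_assoc, smul_assoc]
        have h7 : Real.cos t • α₀ • e0 + Real.cos t • ι y₀ +
            (Real.sin t • α₂ • e0 + Real.sin t • ι y₂) =
            Real.cos t • α₀ • e0 + Real.sin t • α₂ • e0 +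
              (Real.cos t • ι y₀ + Real.sin t • ι y₂) := by abel
        rw [h7, h6, add_zero]
      have h6 : ∀ t, Real.cos t • y₀ + Real.sin t • y₂ = 0 →
          ‖Real.cos t • α₀ + Real.sin t • α₂‖ = 1 := by
        intro t ht
        have h7 := norm_gd h0 h2 h t
        rw [hg t ht, norm_smul, m.emb.unit, mul_one] at h7
        exact h7
      have h7 := fs_gd h0 h2 h (s := t₁) (t := t₂) (by
        rw [abs_sub_comm, abs_of_pos (sub_pos.2 h5)]
        linarith [h3.1.1, h4.1.2])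
      rw [hg t₁ h3.2, hg t₂ h4.2, fs_smul_left _ _ (h6 t₁ h3.2), fs_smul_right _ _ (h6 t₂ h4.2),
        fs_self m.emb.unit, abs_sub_comm, abs_of_pos (sub_pos.2 h5)] at h7
      linarith
  have hfin := hK.finite.union hP.finite
  have hcont : Continuous fun q : ℝ × ℝ => dist (X q.1) (X q.2) :=
    (hXc.comp continuous_fst).dist (hXc.comp continuous_snd)
  have h3 := lip_finite (δ := fun s t => dist (X s) (X t)) (C := 1 / cc D) (a := 0)
    (b := m.dl x y) hfin.toFinset hθ.le (fun t => dist_self _)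
    (fun r s t => dist_triangle _ _ _) hcont
    (fun t ht htB C' hC' => by
      rw [Set.Finite.mem_toFinset, Set.mem_union, not_or] at htB
      have ht' : t ∈ Icc (0 : ℝ) (m.dl x y) := ⟨ht.1.le, ht.2.le⟩
      have hα : Real.cos t • α₀ + Real.sin t • α₂ ≠ 0 := fun h => htB.1 ⟨ht', h⟩
      have hy : Real.cos t • y₀ + Real.sin t • y₂ ≠ 0 := fun h => htB.2 ⟨ht', h⟩
      filter_upwards [m.local_ge h0 h2 h hz₀ hz₂ hX hα hy, self_mem_nhdsWithin] with s h4 h5
      exact h4.trans (mul_le_mul_of_nonneg_right hC'.le (sub_pos.2 h5).le))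
  rw [sub_zero, hX0, hXθ] at h3
  exact h3

theorem Mod.ge (m : Mod e D p J e0 ι) (x y : M) : dist x y ≤ 1 / cc D * m.dl x y := by
  rcases (m.rig.diam p x).lt_or_eq with h | h
  · exact m.ge_of_lt h y
  · obtain ⟨v, hvx, hvD⟩ : ∃ v : TangentSpace 𝓘(ℝ, E) p, e p v = x ∧ ‖v‖ = D :=
      ⟨symmL m.rig.facts p x, symmL_exp m.rig.facts p x, (symmL_norm m.rig.facts p x).trans h⟩
    have hc : Continuous (e p) := (contMDiff_exp_fiber m.rig.facts.isExp p).continuous
    have hcs : Continuous fun s : ℝ => e p (s • v) :=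
      hc.comp (continuous_id.smul continuous_const)
    have hc1 : Continuous fun s : ℝ => m.dl (e p (s • v)) y :=
      m.continuous_dl.comp (hcs.prodMk continuous_const)
    have hcl : IsClosed {s : ℝ | dist (e p (s • v)) y ≤ 1 / cc D * m.dl (e p (s • v)) y} :=
      isClosed_le (hcs.dist continuous_const) (continuous_const.mul hc1)
    have hsub : Ioo (0 : ℝ) 1 ⊆ {s : ℝ | dist (e p (s • v)) y ≤
        1 / cc D * m.dl (e p (s • v)) y} := by
      intro s hs
      refine m.ge_of_lt ?_ y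
      have hlt : ‖s • v‖ < D := by
        rw [norm_smul, hvD, Real.norm_of_nonneg hs.1.le]
        have := m.rig.pos
        nlinarith [hs.2]
      rw [m.rig.inj p _ hlt.le]
      exact hlt
    have h2 := closure_minimal hsub hcl
    rw [closure_Ioo zero_ne_one] at h2
    have h3 : dist (e p ((1 : ℝ) • v)) y ≤ 1 / cc D * m.dl (e p ((1 : ℝ) • v)) y :=
      h2 (right_mem_Icc.2 zero_le_one)
    rw [one_smul, hvx] at h3
    exact h3

/-- **The isometry.** -/
theorem Mod.dist_eq (m : Mod e D p J e0 ι) (x y : M) :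
    dist x y = 2 * D / Real.pi * Real.arccos
      ‖(inner ℂ (ZZ m.rig.facts D p e0 ι x) (ZZ m.rig.facts D p e0 ι y) : ℂ)‖ := by
  have hc := m.cpos
  have h1 : m.dl x y = Real.arccos
      ‖(inner ℂ (ZZ m.rig.facts D p e0 ι x) (ZZ m.rig.facts D p e0 ι y) : ℂ)‖ := m.dl_def x y
  have h2 : 1 / cc D = 2 * D / Real.pi := by
    unfold cc
    rw [one_div_div]
  rw [← h1, ← h2]
  refine le_antisymm (m.ge x y) ?_
  have h3 := m.le x y
  rw [one_div, inv_mul_le_iff₀ hc]
  exact h3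

end

end Vale.Agent.P231.FS
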