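import Vale.Agent.P231.H512.FS7

/-! P231: the isometry with the complex projective space, final form. -/

set_option maxSynthPendingDepth 3
set_option linter.unusedSectionVars false

open Bundle Manifold Set Filter Module
open scoped ContDiff Manifold Topology ComplexConjugate

namespace Vale.Agent.P231.FS

noncomputable section

open Vale.Agent.P234 Vale.Agent.P231 Vale.Agent.P231.H703 Vale.Agent.P231.H775
  Vale.Agent.P231.H512

section emb

variable {V : Type*} [NormedAddCommGroup V] [InnerProductSpace ℝ V] [FiniteDimensional ℝ V]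

/-- the embedding of `V` in `ℂ ⊕ V` -/
theorem exists_emb {J : V →ₗ[ℝ] V} (h : OCS J) {n : ℕ} (hn : 2 * n = finrank ℝ V) :
    ∃ (e0 : EuclideanSpace ℂ (Fin (n + 1))) (ι : V →L[ℝ] EuclideanSpace ℂ (Fin (n + 1))),
      Emb J e0 ι := by
  have hfr : finrank ℂ (CV h) = n := by
    have := cv_finrank h
    omega
  let b : OrthonormalBasis (Fin n) ℂ (CV h) :=
    (stdOrthonormalBasis ℂ (CV h)).reindex (finCongr hfr)
  let T : V → EuclideanSpace ℂ (Fin n) := fun v => b.repr ((tv h).symm v)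
  have hT1 : ∀ v w, T (v + w) = T v + T w := fun v w => by
    simp only [T, map_add]
  have hT2 : ∀ (r : ℝ) v i, T (r • v) i = (r : ℂ) * T v i := fun r v i => by
    have h1 : (tv h).symm (r • v) = (r : ℂ) • (tv h).symm v := by
      apply (tv h).injective
      rw [CV_smul]
      simp
    simp only [T, h1, map_smul]
    rfl
  have hTi : ∀ v w, (inner ℂ (T v) (T w) : ℂ) = ⟨inner ℝ v w, -inner ℝ v (J w)⟩ := fun v w => by
    have h1 := b.repr.inner_map_map ((tv h).symm v) ((tv h).symm w)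
    rw [cv_inner] at h1
    exact h1
  have hTI : ∀ v, T (J v) = Complex.I • T v := fun v => by
    have h1 : (tv h).symm (J v) = Complex.I • (tv h).symm v := by
      apply (tv h).injective
      rw [CV_smul]
      simp
    simp only [T, h1, map_smul]
  have hTs : Function.Surjective T := fun z =>
    ⟨tv h (b.repr.symm z), by
      simp only [T, LinearEquiv.symm_apply_apply, LinearIsometryEquiv.apply_symm_apply]⟩
  let L : V →ₗ[ℝ] EuclideanSpace ℂ (Fin (n + 1)) :=
    { toFun := fun v => WithLp.toLp 2 (Fin.cons 0 (fun i => T v i))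
      map_add' := fun v w => by
        ext i
        refine Fin.cases ?_ (fun i => ?_) i
        · simp
        · simp [hT1]
      map_smul' := fun r v => by
        ext i
        refine Fin.cases ?_ (fun i => ?_) i
        · simp
        · simp [hT2] }
  have hL0 : ∀ v, L v 0 = 0 := fun v => rfl
  have hLs : ∀ v i, L v (Fin.succ i) = T v i := fun v i => rfl
  refine ⟨EuclideanSpace.single 0 1, LinearMap.toContinuousLinearMap L, ?_, ?_, ?_, ?_, ?_⟩
  · simp
  · intro v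
    show (inner ℂ (EuclideanSpace.single 0 1) (L v) : ℂ) = 0
    rw [EuclideanSpace.inner_single_left, hL0]
    simp
  · intro v w
    show (inner ℂ (L v) (L w) : ℂ) = _
    rw [PiLp.inner_apply, Fin.sum_univ_succ, hL0, hL0, ← hTi, PiLp.inner_apply]
    simp [hLs]
  · intro v
    show L (J v) = Complex.I • L v
    ext i
    refine Fin.cases ?_ (fun i => ?_) i
    · rw [hL0]
      simp [hL0]
    · rw [hLs, hTI]
      simp [hLs]
  · intro z
    obtain ⟨v, hv⟩ := hTs (WithLp.toLp 2 fun i => z (Fin.succ i))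
    refine ⟨z 0, v, ?_⟩
    show z = z 0 • EuclideanSpace.single 0 1 + L v
    ext i
    refine Fin.cases ?_ (fun i => ?_) i
    · simp [hL0]
    · simp [hLs, hv]

end emb

variable {E : Type*} [NormedAddCommGroup E] [NormedSpace ℝ E] [FiniteDimensional ℝ E]
  {M : Type*} [MetricSpace M] [ChartedSpace E M]
  [RiemannianBundle (fun x : M => TangentSpace 𝓘(ℝ, E) x)]
  [IsManifold 𝓘(ℝ, E) ∞ M]
  [IsContMDiffRiemannianBundle 𝓘(ℝ, E) ∞ E (fun x : M => TangentSpace 𝓘(ℝ, E) x)]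
  {e : ∀ x : M, TangentSpace 𝓘(ℝ, E) x → M}
  [CompactSpace M] [ConnectedSpace M] [IsRiemannianManifold 𝓘(ℝ, E) M]

/-- the complex structure on the tangent space -/
theorem exists_OCS_T (F : Facts e) {D : ℝ} (hD : 0 < D) {p : M} {P : E → E →ₗ[ℝ] E}
    (hP : PData e D 1 p P) :
    ∃ J : TangentSpace 𝓘(ℝ, E) p →ₗ[ℝ] TangentSpace 𝓘(ℝ, E) p, OCS J ∧
      ∀ u w : TangentSpace 𝓘(ℝ, E) p, ‖u‖ = 1 →
        P (u : E) (w : E) = (((inner ℝ (J u) w : ℝ) • J u : TangentSpace 𝓘(ℝ, E) p) : E) := by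
  obtain ⟨J, hJ, h1⟩ := exists_OCS_PData F hD hP
  have hfs : ∀ v : E, fr p ((fr p).symm v) = v := fun v => (fr p).apply_symm_apply v
  let J₁ : E →ₗ[ℝ] E := (fr p : Eu E ≃L[ℝ] E).toLinearEquiv.toLinearMap ∘ₗ J ∘ₗ
      (fr p : Eu E ≃L[ℝ] E).symm.toLinearEquiv.toLinearMap
  have hJ₁ : ∀ v : E, J₁ v = fr p (J ((fr p).symm v)) := fun v => rfl
  have hsq : ∀ v : E, J₁ (J₁ v) = -v := fun v => by
    rw [hJ₁, hJ₁, (fr p).symm_apply_apply, hJ.sq, map_neg, hfs]
  have hisom : ∀ v w : E, ip p (J₁ v) (J₁ w) = ip p v w := fun v w => by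
    rw [hJ₁, hJ₁, ip_fr, hJ.isom, ← ip_fr p, hfs, hfs]
  have hpr : ∀ u w : E, nm p u = 1 → P u w = ip p (J₁ u) w • J₁ u := fun u w hu => by
    have h2 : ‖(fr p).symm u‖ = 1 := by
      rw [← nm_fr p, hfs]
      exact hu
    have h3 := h1 ((fr p).symm u) ((fr p).symm w) h2
    rw [hfs, hfs, map_smul, ← ip_fr p, hfs] at h3
    exact h3
  exact ⟨J₁, ⟨hsq, hisom⟩, hpr⟩

/-- **A Blaschke manifold of model volume and cut multiplicity one is isometric to the complex
projective space.** -/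
theorem isometric_of_rig {D : ℝ} (R : Rig e D 1) (p : M) :
    ∃ n : ℕ, 2 * n = finrank ℝ E ∧ ∃ Z : M → EuclideanSpace ℂ (Fin (n + 1)),
      (∀ x, ‖Z x‖ = 1) ∧
      (∀ x y, dist x y = 2 * D / Real.pi * Real.arccos ‖(inner ℂ (Z x) (Z y) : ℂ)‖) ∧
      ∀ z, ‖z‖ = 1 → ∃ x, ‖(inner ℂ (Z x) z : ℂ)‖ = 1 := by
  obtain ⟨P, hP⟩ := R.proj
  obtain ⟨J, hJ, hPJ⟩ := exists_OCS_T R.facts R.pos (hP p)
  have hfin : FiniteDimensional ℝ (TangentSpace 𝓘(ℝ, E) p) :=
    inferInstanceAs (FiniteDimensional ℝ E)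
  have hfr := cv_finrank hJ
  obtain ⟨e0, ι, hE⟩ := exists_emb hJ hfr
  have m : Mod e D p J e0 ι := ⟨R, hE, P, hP, hPJ⟩
  refine ⟨finrank ℂ (CV hJ), hfr, ZZ R.facts D p e0 ι, m.norm_ZZ, m.dist_eq, fun z hz => ?_⟩
  obtain ⟨x, μ, hμ, hx⟩ := m.surj hz
  refine ⟨x, ?_⟩
  have hx' : ZZ R.facts D p e0 ι x = μ • z := hx
  rw [hx', inner_smul_left, norm_mul, RCLike.norm_conj, hμ, one_mul, inner_self_eq_norm_sq_to_K,
    hz]
  simp

end

end Vale.Agent.P231.FS
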