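import Vale.Agent.P231.H775.Lift
import Vale.Agent.P231.H703.MultLE

/-! P231: a linear isometry between tangent spaces of two Blaschke manifolds that preserves the
metric in normal coordinates induces an isometry. -/

set_option maxSynthPendingDepth 3
set_option linter.unusedSectionVars false

open Bundle Manifold Set Filter Module
open scoped ContDiff Manifold Topology

namespace Vale.Agent.P231.H512

noncomputable section

open Vale.Agent.P234 Vale.Agent.P231 Vale.Agent.P231.H703 Vale.Agent.P231.H775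

variable {E : Type*} [NormedAddCommGroup E] [NormedSpace ℝ E] [FiniteDimensional ℝ E]
  {M : Type*} [MetricSpace M] [ChartedSpace E M]
  [RiemannianBundle (fun x : M => TangentSpace 𝓘(ℝ, E) x)]
  [IsManifold 𝓘(ℝ, E) ∞ M]
  [IsContMDiffRiemannianBundle 𝓘(ℝ, E) ∞ E (fun x : M => TangentSpace 𝓘(ℝ, E) x)]
  {e : ∀ x : M, TangentSpace 𝓘(ℝ, E) x → M}

variable {E' : Type*} [NormedAddCommGroup E'] [NormedSpace ℝ E'] [FiniteDimensional ℝ E']
  {M' : Type*} [MetricSpace M'] [ChartedSpace E' M']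
  [RiemannianBundle (fun x : M' => TangentSpace 𝓘(ℝ, E') x)]
  [IsManifold 𝓘(ℝ, E') ∞ M']
  [IsContMDiffRiemannianBundle 𝓘(ℝ, E') ∞ E' (fun x : M' => TangentSpace 𝓘(ℝ, E') x)]
  {e' : ∀ x : M', TangentSpace 𝓘(ℝ, E') x → M'}

variable [CompactSpace M] [ConnectedSpace M] [IsRiemannianManifold 𝓘(ℝ, E) M]
variable [CompactSpace M'] [ConnectedSpace M'] [IsRiemannianManifold 𝓘(ℝ, E') M']

/-- `L` as a continuous linear map of tangent spaces -/
def isoLL {p : M} {p' : M'} {L : E →ₗ[ℝ] E'} (hL : ∀ v, nm p' (L v) = nm p v) :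
    TangentSpace 𝓘(ℝ, E) p →L[ℝ] TangentSpace 𝓘(ℝ, E') p' :=
  LinearMap.mkContinuous
    ({ toFun := fun v => (L v : E'), map_add' := fun a b => L.map_add a b,
       map_smul' := fun c a => L.map_smul c a } :
      TangentSpace 𝓘(ℝ, E) p →ₗ[ℝ] TangentSpace 𝓘(ℝ, E') p') 1
    fun v => ((hL v).le.trans_eq (one_mul _).symm)

theorem isoLL_apply {p : M} {p' : M'} {L : E →ₗ[ℝ] E'} (hL : ∀ v, nm p' (L v) = nm p v)
    (v : TangentSpace 𝓘(ℝ, E) p) : (isoLL hL v : E') = L (v : E) := rfl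

theorem isoLL_norm {p : M} {p' : M'} {L : E →ₗ[ℝ] E'} (hL : ∀ v, nm p' (L v) = nm p v)
    (v : TangentSpace 𝓘(ℝ, E) p) : ‖isoLL hL v‖ = ‖v‖ := hL v

section map

variable {p : M} {p' : M'} {L : E →ₗ[ℝ] E'}

/-- the map -/
def isoT (F : Facts e) (e' : ∀ x : M', TangentSpace 𝓘(ℝ, E') x → M')
    (hL : ∀ v, nm p' (L v) = nm p v) (y : M) : M' :=
  e' p' (isoLL hL (symmL F p y))

theorem isoT_exp_of_le (F : Facts e) {D : ℝ} (hB : InjGE e D)
    (hL : ∀ v, nm p' (L v) = nm p v)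
    (hC : ∀ v v' : TangentSpace 𝓘(ℝ, E) p, ‖v‖ = D → ‖v'‖ = D → e p v = e p v' →
      e' p' (isoLL hL v) = e' p' (isoLL hL v'))
    (v : TangentSpace 𝓘(ℝ, E) p) (hv : ‖v‖ ≤ D) :
    isoT F e' hL (e p v) = e' p' (isoLL hL v) := by
  unfold isoT
  rcases hv.lt_or_eq with h | h
  · have h1 : symmL F p (e p v) = v := by
      have h2 : v ∈ injDomain e p := hB.mem_injDomain h
      have h3 : symmL F p (e p v) ∈ segMin e p := by
        show dist p (e p (symmL F p (e p v))) = ‖symmL F p (e p v)‖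
        rw [symmL_exp F, symmL_norm F]
      exact F.injDomain_unique h2 h3 (symmL_exp F p _)
    rw [h1]
  · have h1 : dist p (e p v) = D := by
      rw [hB p v hv]
      exact h
    exact hC (symmL F p (e p v)) v ((symmL_norm F p _).trans h1) h (symmL_exp F p _)

theorem isoT_exp (F : Facts e) (F' : Facts e') {D : ℝ} (hD : 0 < D) (hB : InjGE e D)
    (hcl : ∀ (x : M) (v : E), nm x v = 2 * D → e x v = x)
    (hcl' : ∀ (x : M') (v : E'), nm x v = 2 * D → e' x v = x)
    (hL : ∀ v, nm p' (L v) = nm p v)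
    (hC : ∀ v v' : TangentSpace 𝓘(ℝ, E) p, ‖v‖ = D → ‖v'‖ = D → e p v = e p v' →
      e' p' (isoLL hL v) = e' p' (isoLL hL v'))
    (v : TangentSpace 𝓘(ℝ, E) p) : isoT F e' hL (e p v) = e' p' (isoLL hL v) := by
  by_cases hv : ‖v‖ ≤ D
  · exact isoT_exp_of_le F hB hL hC v hv
  · push Not at hv
    set r := ‖v‖ with hr
    have hr0 : 0 < r := hD.trans hv
    set u : TangentSpace 𝓘(ℝ, E) p := r⁻¹ • v with hu
    have hu1 : ‖u‖ = 1 := by
      rw [hu, norm_smul, ← hr, Real.norm_of_nonneg (inv_pos.2 hr0).le, inv_mul_cancel₀ hr0.ne']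
    have hvu : v = r • u := by
      rw [hu, smul_smul, mul_inv_cancel₀ hr0.ne', one_smul]
    have hu1' : ‖isoLL hL u‖ = 1 := (isoLL_norm hL u).trans hu1
    set k : ℤ := round (r / (2 * D)) with hk
    set t0 : ℝ := r - k * (2 * D) with ht0
    have h3 : |t0| ≤ D := by
      have h4 : t0 = (r / (2 * D) - round (r / (2 * D))) * (2 * D) := by
        rw [ht0, hk, sub_mul, div_mul_cancel₀ _ (by positivity)]
      rw [h4, abs_mul, abs_of_pos (by positivity : (0:ℝ) < 2 * D)]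
      have := abs_sub_round (r / (2 * D))
      nlinarith only [hD, this]
    have hrt : r = t0 + k * (2 * D) := by rw [ht0]; ring
    have h6 := isoT_exp_of_le F hB hL hC (t0 • u) (by
      rw [norm_smul, hu1, mul_one]
      exact h3)
    have h7 : e p v = e p (t0 • u) := by
      rw [hvu, hrt]
      exact symm_reduce F hD hcl hu1 k t0
    have h8 : e' p' (isoLL hL v) = e' p' (isoLL hL (t0 • u)) := by
      have h9 : isoLL hL v = (t0 + k * (2 * D)) • isoLL hL u := by
        rw [← hrt, ← map_smul, ← hvu]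
      have h10 : isoLL hL (t0 • u) = t0 • isoLL hL u := map_smul _ _ _
      rw [h9, h10]
      exact symm_reduce F' hD hcl' hu1' k t0
    rw [h7, h6, h8]

theorem continuous_isoT (F : Facts e) (F' : Facts e') {D : ℝ} (hB : InjGE e D)
    (hd : ∀ x y : M, dist x y ≤ D)
    (hL : ∀ v, nm p' (L v) = nm p v)
    (hC : ∀ v v' : TangentSpace 𝓘(ℝ, E) p, ‖v‖ = D → ‖v'‖ = D → e p v = e p v' →
      e' p' (isoLL hL v) = e' p' (isoLL hL v')) :
    Continuous (isoT F e' hL) := by
  have : ProperSpace (TangentSpace 𝓘(ℝ, E) p) := FiniteDimensional.proper ℝ _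
  have hc : Continuous (e p) := (contMDiff_exp_fiber F.isExp p).continuous
  have hc' : Continuous (e' p') := (contMDiff_exp_fiber F'.isExp p').continuous
  let g : Metric.closedBall (0 : TangentSpace 𝓘(ℝ, E) p) D → M := fun v => e p v
  have hgc : Continuous g := hc.comp continuous_subtype_val
  have hsurj : Function.Surjective g := fun y => by
    refine ⟨⟨symmL F p y, ?_⟩, symmL_exp F p y⟩
    rw [mem_closedBall_zero_iff]
    exact (symmL_norm F p y).trans_le (hd p y)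
  have hcomp : CompactSpace (Metric.closedBall (0 : TangentSpace 𝓘(ℝ, E) p) D) :=
    isCompact_iff_compactSpace.1 (isCompact_closedBall _ _)
  have hq : Topology.IsQuotientMap g := hgc.isClosedMap.isQuotientMap hgc hsurj
  rw [hq.continuous_iff]
  have h1 : isoT F e' hL ∘ g = fun v => e' p' (isoLL hL v.1) :=
    funext fun v => isoT_exp_of_le F hB hL hC _ (mem_closedBall_zero_iff.1 v.2)
  rw [h1]
  exact hc'.comp ((isoLL hL).continuous.comp continuous_subtype_val)

/-- speed along a lifted curve -/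
theorem iso_speed_of_lift (F : Facts e) (F' : Facts e') {D : ℝ} (hD : 0 < D) (hB : InjGE e D)
    (hcl : ∀ (x : M) (v : E), nm x v = 2 * D → e x v = x)
    (hcl' : ∀ (x : M') (v : E'), nm x v = 2 * D → e' x v = x)
    (hL : ∀ v, nm p' (L v) = nm p v)
    (hC : ∀ v v' : TangentSpace 𝓘(ℝ, E) p, ‖v‖ = D → ‖v'‖ = D → e p v = e p v' →
      e' p' (isoLL hL v) = e' p' (isoLL hL v'))
    {c : ℝ → M} {t : ℝ} {η : ℝ → TangentSpace 𝓘(ℝ, E) p} {η' : TangentSpace 𝓘(ℝ, E) p}
    (hηs : ContDiffAt ℝ ∞ η t) (hηd : HasDerivAt η η' t) (h1 : c =ᶠ[𝓝 t] fun s => e p (η s))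
    (hg : nm (e' p' (L (η t : E))) (dE e' p' (L (η t : E)) (L (η' : E))) =
      nm (e p (η t)) (dE e p (η t : E) (η' : E))) :
    ContMDiffAt 𝓘(ℝ, ℝ) 𝓘(ℝ, E') ∞ (fun s => isoT F e' hL (c s)) t ∧
      nm (E := E') (isoT F e' hL (c t))
        (mfderiv 𝓘(ℝ, ℝ) 𝓘(ℝ, E') (fun s => isoT F e' hL (c s)) t (1 : ℝ)) =
      nm (E := E) (c t) (mfderiv 𝓘(ℝ, ℝ) 𝓘(ℝ, E) c t (1 : ℝ)) := by
  have hev : e p (η t) = c t := h1.eq_of_nhds.symm
  have h2 : (fun s => isoT F e' hL (c s)) =ᶠ[𝓝 t] fun s => e' p' (isoLL hL (η s)) := by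
    filter_upwards [h1] with s hs
    rw [hs]
    exact isoT_exp F F' hD hB hcl hcl' hL hC _
  have hηd' : HasDerivAt (fun s => isoLL hL (η s)) (isoLL hL η') t :=
    (isoLL hL).hasFDerivAt.comp_hasDerivAt t hηd
  have h3 : (mfderiv 𝓘(ℝ, ℝ) 𝓘(ℝ, E) c t (1 : ℝ) : E) = dE e p (η t : E) η' :=
    (congrArg (fun L : ℝ →L[ℝ] E => L 1) h1.mfderiv_eq).trans (mfderiv_exp_curve F.isExp p hηd)
  have h4 : (mfderiv 𝓘(ℝ, ℝ) 𝓘(ℝ, E') (fun s => isoT F e' hL (c s)) t (1 : ℝ) : E') =
      dE e' p' (isoLL hL (η t) : E') (isoLL hL η' : E') :=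
    (congrArg (fun L : ℝ →L[ℝ] E' => L 1) h2.mfderiv_eq).trans
      (mfderiv_exp_curve F'.isExp p' hηd')
  refine ⟨?_, ?_⟩
  · refine ContMDiffAt.congr_of_eventuallyEq ?_ h2
    have h5 : ContMDiffAt 𝓘(ℝ, ℝ) 𝓘(ℝ, TangentSpace 𝓘(ℝ, E') p') ∞
        (fun s => isoLL hL (η s)) t :=
      ((isoLL hL).contDiff.contDiffAt.comp t hηs).contMDiffAt
    exact (contMDiff_exp_fiber F'.isExp p').contMDiffAt.comp t h5
  · have h5 : isoT F e' hL (c t) = e' p' (isoLL hL (η t)) := h2.eq_of_nhds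
    have h8 : nm (E := E') (isoT F e' hL (c t))
        (mfderiv 𝓘(ℝ, ℝ) 𝓘(ℝ, E') (fun s => isoT F e' hL (c s)) t (1 : ℝ)) =
        nm (E := E') (e' p' (isoLL hL (η t)))
          (dE (E := E') e' p' (isoLL hL (η t)) (isoLL hL η')) := by
      rw [h5]
      exact congrArg (nm (E := E') (e' p' (isoLL hL (η t)))) h4
    have h9 : nm (E := E) (c t) (mfderiv 𝓘(ℝ, ℝ) 𝓘(ℝ, E) c t (1 : ℝ)) =
        nm (E := E) (e p (η t)) (dE (E := E) e p (η t) η') := by
      rw [hev]
      exact congrArg (nm (E := E) (c t)) h3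
    exact h8.trans (Eq.trans hg h9.symm)

theorem iso_speed (F : Facts e) (F' : Facts e') {D : ℝ} (hD : 0 < D) (hB : InjGE e D)
    (hcl : ∀ (x : M) (v : E), nm x v = 2 * D → e x v = x)
    (hcl' : ∀ (x : M') (v : E'), nm x v = 2 * D → e' x v = x)
    (hL : ∀ v, nm p' (L v) = nm p v)
    (hC : ∀ v v' : TangentSpace 𝓘(ℝ, E) p, ‖v‖ = D → ‖v'‖ = D → e p v = e p v' →
      e' p' (isoLL hL v) = e' p' (isoLL hL v'))
    (hg : ∀ v : E, nm p v < D → ∀ w : E,
      nm (e' p' (L v)) (dE e' p' (L v) (L w)) = nm (e p v) (dE e p v w))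
    {c : ℝ → M} {t : ℝ} (hc : ContMDiffAt 𝓘(ℝ, ℝ) 𝓘(ℝ, E) ∞ c t) (ht : dist p (c t) < D) :
    ContMDiffAt 𝓘(ℝ, ℝ) 𝓘(ℝ, E') ∞ (fun s => isoT F e' hL (c s)) t ∧
      nm (E := E') (isoT F e' hL (c t))
        (mfderiv 𝓘(ℝ, ℝ) 𝓘(ℝ, E') (fun s => isoT F e' hL (c s)) t (1 : ℝ)) =
      nm (E := E) (c t) (mfderiv 𝓘(ℝ, ℝ) 𝓘(ℝ, E) c t (1 : ℝ)) := by
  set v : TangentSpace 𝓘(ℝ, E) p := symmL F p (c t) with hv
  have hvD : ‖v‖ < D := (symmL_norm F p (c t)).trans_lt ht
  have hev : e p v = c t := symmL_exp F p (c t)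
  obtain ⟨Λ, hΛ, hΛv, hΛ1, -⟩ := F.smoothLog (hB.mem_injDomain hvD)
  rw [hev] at hΛ hΛv hΛ1
  have hηs : ContMDiffAt 𝓘(ℝ, ℝ) 𝓘(ℝ, TangentSpace 𝓘(ℝ, E) p) ∞ (fun s => Λ (c s)) t :=
    hΛ.comp t hc
  have h1 : c =ᶠ[𝓝 t] fun s => e p (Λ (c s)) := by
    filter_upwards [hc.continuousAt hΛ1] with s hs
    exact hs.2.symm
  refine iso_speed_of_lift F F' hD hB hcl hcl' hL hC hηs.contDiffAt
    (hηs.contDiffAt.differentiableAt (by simp)).hasDerivAt h1 ?_
  have h2 : ‖Λ (c t)‖ < D := by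
    rw [hΛv]
    exact hvD
  exact hg _ h2 _

/-- points fixed by the geodesic symmetry -/
theorem dist_of_fixed (F : Facts e) {D : ℝ} (hB : InjGE e D)
    (hd : ∀ x y : M, dist x y ≤ D) {σ : M ≃ᵢ M} (hσ : ∀ v : E, σ (e p v) = e p (-v)) {y : M}
    (hy : σ y = y) : dist p y = 0 ∨ dist p y = D := by
  rcases (hd p y).lt_or_eq with h | h
  · left
    have h1 : ‖symmL F p y‖ < D := (symmL_norm F p y).trans_lt h
    have h2 : ‖-symmL F p y‖ < D := by rwa [norm_neg]
    have h3 : σ (e p (symmL F p y)) = e p (-symmL F p y) := hσ _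
    rw [symmL_exp F, hy] at h3
    have h4 : -symmL F p y = symmL F p y := by
      have h5 : symmL F p y ∈ segMin e p := by
        show dist p (e p (symmL F p y)) = ‖symmL F p y‖
        rw [symmL_exp F, symmL_norm F]
      exact (F.injDomain_unique (hB.mem_injDomain h2) h5
        ((symmL_exp F p y).trans h3)).symm
    have h6 : symmL F p y = 0 := by
      have h9 : (2 : ℝ) • symmL F p y = 0 := by
        rw [two_smul]
        nth_rewrite 1 [← h4]
        exact neg_add_cancel _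
      exact (smul_eq_zero.1 h9).resolve_left two_ne_zero
    have h7 := symmL_exp F p y
    rw [h6] at h7
    rw [← h7]
    have h8 : e p (0 : TangentSpace 𝓘(ℝ, E) p) = p := F.isExp.map_zero p
    rw [h8, dist_self]
  · exact Or.inr h

/-- a geodesic between two cut points at distance less than `D` stays in the cut locus -/
theorem dist_geo_cut (F : Facts e) {D : ℝ} (hD : 0 < D) (hB : InjGE e D)
    (hd : ∀ x y : M, dist x y ≤ D) {σ : M ≃ᵢ M} (hσ : ∀ v : E, σ (e p v) = e p (-v))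
    (hcut : ∀ y : M, dist p y = D → σ y = y) {q : M} {w : E}
    (hw : nm q w < D) (hq : dist p q = D) (hq' : dist p (e q w) = D) (t : ℝ) :
    dist p (gam e q w t) = D := by
  have hfix : ∀ t : ℝ, σ (gam e q w t) = gam e q w t := by
    obtain ⟨A, hA1, hA2⟩ := isometry_linear F σ q
    rw [hcut q hq] at hA1 hA2
    have h1 : A w = w := by
      have h2 : σ (e q w) = e q w := hcut _ hq'
      have h3 : σ (e q w) = e q (A w : E) := hA2 w
      have h4 : nm q (A w) = nm q w := by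
        have h5 := hA1 w w
        rw [ip_self, ip_self] at h5
        exact (sq_eq_sq₀ (nm_nonneg _ _) (nm_nonneg _ _)).1 h5
      let w₁ : TangentSpace 𝓘(ℝ, E) q := w
      let w₂ : TangentSpace 𝓘(ℝ, E) q := A w
      have h6 : ‖w₂‖ = ‖w₁‖ := h4
      have h7 : e q w₂ = e q w₁ := h3.symm.trans h2
      have h8 : w₂ ∈ segMin e q := by
        show dist q (e q w₂) = ‖w₂‖
        rw [h7, h6]
        exact hB q w₁ hw.le
      exact F.injDomain_unique (v := w₁) (hB.mem_injDomain hw) h8 h7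
    intro t
    have h2 : σ (e q (t • w : E)) = e q (A (t • w) : E) := hA2 _
    rw [map_smul, h1] at h2
    exact h2
  have hc : Continuous fun t : ℝ => dist p (gam e q w t) :=
    continuous_const.dist (contMDiff_gam F.isExp q w).continuous
  by_contra hne
  have h0 : dist p (gam e q w t) = 0 :=
    (dist_of_fixed F hB hd hσ (hfix t)).resolve_right hne
  have h1 : dist p (gam e q w 0) = D := by rw [gam_zero F.isExp, hq]
  obtain ⟨s, hs⟩ : D / 2 ∈ Set.range fun t : ℝ => dist p (gam e q w t) := by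
    have h2 : D / 2 ∈ Icc (dist p (gam e q w t)) (dist p (gam e q w 0)) := by
      rw [h0, h1]
      constructor <;> linarith
    exact mem_range_of_exists_le_of_exists_ge hc ⟨t, h2.1⟩ ⟨0, h2.2⟩
  have hs' : dist p (gam e q w s) = D / 2 := hs
  rcases dist_of_fixed F hB hd hσ (hfix s) with h2 | h2
  · rw [h2] at hs'
    linarith
  · rw [h2] at hs'
    linarith

/-- the map does not increase distances on the cut locus -/
theorem iso_dist_cut (F : Facts e) (F' : Facts e') {D : ℝ} (hD : 0 < D) (hB : InjGE e D)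
    (hd : ∀ x y : M, dist x y ≤ D) (hd' : ∀ x y : M', dist x y ≤ D)
    (hcl : ∀ (x : M) (v : E), nm x v = 2 * D → e x v = x)
    (hcl' : ∀ (x : M') (v : E'), nm x v = 2 * D → e' x v = x)
    {l : ℕ} (hl : ∀ x y : M, dist x y = D → finrank ℝ (H703.Pl e D x y) = l + 1)
    {σ : M ≃ᵢ M} (hσ : ∀ v : E, σ (e p v) = e p (-v))
    (hL : ∀ v, nm p' (L v) = nm p v)
    (hC : ∀ v v' : TangentSpace 𝓘(ℝ, E) p, ‖v‖ = D → ‖v'‖ = D → e p v = e p v' →
      e' p' (isoLL hL v) = e' p' (isoLL hL v'))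
    (hgD : ∀ u : E, nm p u = 1 → ∀ w : E, ip p u w = 0 →
      nm (e' p' (D • L u : E')) (dE e' p' (D • L u) (L w)) =
        nm (e p (D • u : E)) (dE e p (D • u) w))
    {q q' : M} (hq : dist p q = D) (hq' : dist p q' = D) :
    dist (isoT F e' hL q) (isoT F e' hL q') ≤ dist q q' := by
  rcases (hd q q').lt_or_eq with hlt | heq
  swap
  · rw [heq]
    exact hd' _ _
  have hcut : ∀ y : M, dist p y = D → σ y = y := by
    intro y hy
    have h1 : σ (e p (symmL F p y)) = e p (-symmL F p y) := hσ _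
    have h2 : e p (-symmL F p y) = e p (symmL F p y) :=
      symm_antipode F hD hcl p _ ((symmL_norm F p y).trans hy)
    rw [h2, symmL_exp F] at h1
    exact h1
  obtain ⟨w, hw, hdw⟩ := F.hopfRinow q q'
  have hwD : ‖w‖ < D := hdw.symm.trans_lt hlt
  set c : ℝ → M := gam e q (w : E) with hc
  have hcs : ContMDiff 𝓘(ℝ, ℝ) 𝓘(ℝ, E) ∞ c := contMDiff_gam F.isExp q w
  have hcD : ∀ t, dist p (c t) = D := fun t =>
    dist_geo_cut F hD hB hd hσ hcut (w := (w : E)) hwD hq (by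
      have h1 : dist p (e q w) = D := by rw [hw]; exact hq'
      exact h1) t
  have hc0 : c 0 = q := gam_zero F.isExp q w
  have hc1 : c 1 = q' := by
    have : c 1 = e q ((1 : ℝ) • w) := rfl
    rw [this, one_smul, hw]
  have hspeed : ∀ t, nm (E := E) (c t) (mfderiv 𝓘(ℝ, ℝ) 𝓘(ℝ, E) c t (1 : ℝ)) = dist q q' := by
    intro t
    have h1 : nm (E := E) (c t) (mfderiv 𝓘(ℝ, ℝ) 𝓘(ℝ, E) c t (1 : ℝ)) =
        nm (E := E) (c t) (vel e q (w : E) t) :=
      congrArg (nm (E := E) (c t)) (mfderiv_gam F.isExp q w t)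
    rw [h1]
    exact (nm_vel F q w t).trans hdw.symm
  have key : ∀ t, ContMDiffAt 𝓘(ℝ, ℝ) 𝓘(ℝ, E') ∞ (fun s => isoT F e' hL (c s)) t ∧
      nm (E := E') (isoT F e' hL (c t))
        (mfderiv 𝓘(ℝ, ℝ) 𝓘(ℝ, E') (fun s => isoT F e' hL (c s)) t (1 : ℝ)) =
      nm (E := E) (c t) (mfderiv 𝓘(ℝ, ℝ) 𝓘(ℝ, E) c t (1 : ℝ)) := by
    intro t
    set v₀ : TangentSpace 𝓘(ℝ, E) p := D⁻¹ • symmL F p (c t) with hv₀
    have hv₀' : D • v₀ = symmL F p (c t) := by
      rw [hv₀, smul_smul, mul_inv_cancel₀ hD.ne', one_smul]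
    have hu₀ : v₀ ∈ Lk e D (c t) p := by
      refine ⟨?_, ?_⟩
      · rw [hv₀, norm_smul, symmL_norm F, hcD t, Real.norm_of_nonneg (inv_pos.2 hD).le,
          inv_mul_cancel₀ hD.ne']
      · rw [hv₀']
        exact symmL_exp F p (c t)
    obtain ⟨u, hu0, hu⟩ := exists_lift (V := ℝ) F hD hB hd (l := l) (fun x y h => hl x y h)
      (f := fun _ => p) (g := c) (s₀ := t) (Eventually.of_forall fun s => contMDiffAt_const)
      (Eventually.of_forall fun s => hcs.contMDiffAt) (Eventually.of_forall fun s => hcD s) hu₀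
    set u' : ℝ → TangentSpace 𝓘(ℝ, E) p := fun s => u s with hu'
    have hsrc : p ∈ (extChartAt 𝓘(ℝ, E) p).source := mem_extChartAt_source p
    have hus : ContDiffAt ℝ ∞ u' t := by
      have h1 := ((smV_iff p hsrc).1 hu.self_of_nhds.1).2
      let A : E →L[ℝ] TangentSpace 𝓘(ℝ, E) p := vec p p
      have h2 : ContDiffAt ℝ ∞ (fun s => A (crd p p (u s))) t :=
        A.contDiff.contDiffAt.comp t h1
      refine h2.congr_of_eventuallyEq (Eventually.of_forall fun s => ?_)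
      exact (vec_crd p hsrc (u s)).symm
    have hud : HasDerivAt u' (deriv u' t) t := (hus.differentiableAt (by simp)).hasDerivAt
    have hn : ∀ᶠ s in 𝓝 t, ‖u' s‖ = 1 := by
      filter_upwards [hu] with s hs using hs.2.1
    have horth : (inner ℝ (u' t) (deriv u' t) : ℝ) = 0 := by
      have h1 : HasDerivAt (fun s => (inner ℝ (u' s) (u' s) : ℝ))
          (inner ℝ (u' t) (deriv u' t) + inner ℝ (deriv u' t) (u' t)) t := hud.inner ℝ hud
      have h2 : HasDerivAt (fun s => (inner ℝ (u' s) (u' s) : ℝ)) 0 t := by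
        refine (hasDerivAt_const t (1 : ℝ)).congr_of_eventuallyEq ?_
        filter_upwards [hn] with s hs
        rw [real_inner_self_eq_norm_sq, hs, one_pow]
      have h3 := h1.unique h2
      rw [real_inner_comm] at h3
      rw [real_inner_comm]
      linarith
    have hη : HasDerivAt (fun s => D • u' s) (D • deriv u' t) t := hud.const_smul D
    refine iso_speed_of_lift F F' hD hB hcl hcl' hL hC (η := fun s => D • u' s)
      (contDiffAt_const.smul hus) hη ?_ ?_
    · filter_upwards [hu] with s hs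
      exact hs.2.2.symm
    · let a : E := u' t
      let z : TangentSpace 𝓘(ℝ, E) p := D • deriv u' t
      let b : E := z
      have h1 : ip p a b = 0 := by
        have h2 : (inner ℝ (u' t) (D • deriv u' t) : ℝ) = 0 := by
          rw [inner_smul_right, horth, mul_zero]
        exact h2
      have h3 := hgD a hn.self_of_nhds b h1
      have h4 : L (D • a) = D • L a := L.map_smul D a
      have h5 : ∀ z z' : E', z = z' → ∀ w : E', nm (e' p' z) (dE e' p' z w) =
          nm (e' p' z') (dE e' p' z' w) := by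
        rintro z z' rfl w
        rfl
      exact (h5 _ _ h4 _).trans h3
  have h2 := symm_dist_le_of_speed (E := E') (M := M') (c := fun s => isoT F e' hL (c s))
    (a := 0) (b := 1) (ℓ := dist q q') zero_le_one dist_nonneg
    (fun t _ => (key t).1.of_le (by simp only [WithTop.one_le_coe, le_top])) fun t _ => by
      rw [(key t).2, hspeed]
  rw [sub_zero, mul_one] at h2
  simpa only [hc0, hc1] using h2

theorem isoT_dist_le (F : Facts e) (F' : Facts e') {D : ℝ} (hD : 0 < D) (hB : InjGE e D)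
    (hd : ∀ x y : M, dist x y ≤ D) (hd' : ∀ x y : M', dist x y ≤ D)
    (hcl : ∀ (x : M) (v : E), nm x v = 2 * D → e x v = x)
    (hcl' : ∀ (x : M') (v : E'), nm x v = 2 * D → e' x v = x)
    {l : ℕ} (hl : ∀ x y : M, dist x y = D → finrank ℝ (H703.Pl e D x y) = l + 1)
    {σ : M ≃ᵢ M} (hσ : ∀ v : E, σ (e p v) = e p (-v))
    (hL : ∀ v, nm p' (L v) = nm p v)
    (hC : ∀ v v' : TangentSpace 𝓘(ℝ, E) p, ‖v‖ = D → ‖v'‖ = D → e p v = e p v' →
      e' p' (isoLL hL v) = e' p' (isoLL hL v'))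
    (hg : ∀ v : E, nm p v < D → ∀ w : E,
      nm (e' p' (L v)) (dE e' p' (L v) (L w)) = nm (e p v) (dE e p v w))
    (hgD : ∀ u : E, nm p u = 1 → ∀ w : E, ip p u w = 0 →
      nm (e' p' (D • L u : E')) (dE e' p' (D • L u) (L w)) =
        nm (e p (D • u : E)) (dE e p (D • u) w)) (x y : M) :
    dist (isoT F e' hL x) (isoT F e' hL y) ≤ dist x y := by
  obtain ⟨w, hw, hdw⟩ := F.hopfRinow x y
  set c : ℝ → M := gam e x (w : E) with hc
  have hc0 : c 0 = x := gam_zero F.isExp x w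
  have hc1 : c 1 = y := by
    have : c 1 = e x ((1 : ℝ) • w) := rfl
    rw [this, one_smul, hw]
  have hcs : ContMDiff 𝓘(ℝ, ℝ) 𝓘(ℝ, E) ∞ c := contMDiff_gam F.isExp x w
  have hcc : Continuous c := hcs.continuous
  set ℓ := dist x y with hℓ
  have hℓ0 : 0 ≤ ℓ := dist_nonneg
  have hspeed : ∀ t, nm (E := E) (c t) (mfderiv 𝓘(ℝ, ℝ) 𝓘(ℝ, E) c t (1 : ℝ)) = ℓ := by
    intro t
    have h1 : nm (E := E) (c t) (mfderiv 𝓘(ℝ, ℝ) 𝓘(ℝ, E) c t (1 : ℝ)) =
        nm (E := E) (c t) (vel e x (w : E) t) :=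
      congrArg (nm (E := E) (c t)) (mfderiv_gam F.isExp x w t)
    rw [h1]
    exact (nm_vel F x w t).trans hdw.symm
  have hS := continuous_isoT F F' hB hd hL hC
  have hself : ∀ a b, a ≤ b → dist (c a) (c b) ≤ ℓ * (b - a) := fun a b hab =>
    symm_dist_le_of_speed hab hℓ0
      (fun t _ => (hcs.contMDiffAt).of_le (by simp only [WithTop.one_le_coe, le_top]))
      fun t _ => (hspeed t).le
  have hA : ∀ a b, a ≤ b → (∀ t ∈ Icc a b, dist p (c t) < D) →
      dist (isoT F e' hL (c a)) (isoT F e' hL (c b)) ≤ ℓ * (b - a) := by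
    intro a b hab h
    have h1 := fun t ht =>
      iso_speed F F' hD hB hcl hcl' hL hC hg (hcs.contMDiffAt (x := t)) (h t ht)
    exact symm_dist_le_of_speed (E := E') (M := M') (c := fun s => isoT F e' hL (c s)) hab hℓ0
      (fun t ht => (h1 t ht).1.of_le (by simp only [WithTop.one_le_coe, le_top])) fun t ht => by
        rw [(h1 t ht).2, hspeed]
  have hA1 : ∀ a b, a ≤ b → (∀ t ∈ Ico a b, dist p (c t) < D) →
      dist (isoT F e' hL (c a)) (isoT F e' hL (c b)) ≤ ℓ * (b - a) := by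
    intro a b hab h
    rcases hab.eq_or_lt with rfl | hab'
    · simp
    · have hcl' : IsClosed {t : ℝ | dist (isoT F e' hL (c a)) (isoT F e' hL (c t)) ≤
          ℓ * (t - a)} :=
        isClosed_le (continuous_const.dist (hS.comp hcc))
          (continuous_const.mul (continuous_id.sub continuous_const))
      have hsub : Ico a b ⊆ {t : ℝ | dist (isoT F e' hL (c a)) (isoT F e' hL (c t)) ≤
          ℓ * (t - a)} :=
        fun t ht => hA a t ht.1 fun s hs => h s ⟨hs.1, hs.2.trans_lt ht.2⟩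
      have h2 := closure_minimal hsub hcl'
      rw [closure_Ico hab'.ne] at h2
      exact h2 ⟨hab, le_rfl⟩
  have hA2 : ∀ a b, a ≤ b → (∀ t ∈ Ioc a b, dist p (c t) < D) →
      dist (isoT F e' hL (c a)) (isoT F e' hL (c b)) ≤ ℓ * (b - a) := by
    intro a b hab h
    rcases hab.eq_or_lt with rfl | hab'
    · simp
    · have hcl' : IsClosed {t : ℝ | dist (isoT F e' hL (c t)) (isoT F e' hL (c b)) ≤
          ℓ * (b - t)} :=
        isClosed_le ((hS.comp hcc).dist continuous_const)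
          (continuous_const.mul (continuous_const.sub continuous_id))
      have hsub : Ioc a b ⊆ {t : ℝ | dist (isoT F e' hL (c t)) (isoT F e' hL (c b)) ≤
          ℓ * (b - t)} :=
        fun t ht => hA t b ht.2 fun s hs => h s ⟨ht.1.trans_le hs.1, hs.2⟩
      have h2 := closure_minimal hsub hcl'
      rw [closure_Ioc hab'.ne] at h2
      exact h2 ⟨le_rfl, hab⟩
  have hfix : ∀ q q', dist p q = D → dist p q' = D →
      dist (isoT F e' hL q) (isoT F e' hL q') ≤ dist q q' := fun q q' hq hq' =>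
    iso_dist_cut F F' hD hB hd hd' hcl hcl' hl hσ hL hC hgD hq hq'
  by_cases h : ∃ t ∈ Icc (0 : ℝ) 1, dist p (c t) = D
  · have hKc : IsCompact {t : ℝ | t ∈ Icc (0 : ℝ) 1 ∧ dist p (c t) = D} := by
      refine isCompact_Icc.of_isClosed_subset ?_ fun t ht => ht.1
      exact isClosed_Icc.inter (isClosed_eq (continuous_const.dist hcc) continuous_const)
    have hKn : {t : ℝ | t ∈ Icc (0 : ℝ) 1 ∧ dist p (c t) = D}.Nonempty := by
      obtain ⟨t, h1, h2⟩ := h
      exact ⟨t, h1, h2⟩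
    obtain ⟨a, haK, ha⟩ := hKc.exists_isLeast hKn
    obtain ⟨b, hbK, hb⟩ := hKc.exists_isGreatest hKn
    have hab : a ≤ b := ha hbK
    have h1 : dist (isoT F e' hL (c 0)) (isoT F e' hL (c a)) ≤ ℓ * (a - 0) := by
      refine hA1 0 a haK.1.1 fun t ht => lt_of_le_of_ne (hd _ _) fun h2 => ?_
      have h3 : t ∈ {t : ℝ | t ∈ Icc (0 : ℝ) 1 ∧ dist p (c t) = D} :=
        ⟨⟨ht.1, ht.2.le.trans haK.1.2⟩, h2⟩
      exact absurd (ha h3) (not_le.2 ht.2)
    have h2 : dist (isoT F e' hL (c b)) (isoT F e' hL (c 1)) ≤ ℓ * (1 - b) := by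
      refine hA2 b 1 hbK.1.2 fun t ht => lt_of_le_of_ne (hd _ _) fun h2 => ?_
      have h3 : t ∈ {t : ℝ | t ∈ Icc (0 : ℝ) 1 ∧ dist p (c t) = D} :=
        ⟨⟨hbK.1.1.trans ht.1.le, ht.2⟩, h2⟩
      exact absurd (hb h3) (not_le.2 ht.1)
    have h3 : dist (isoT F e' hL (c a)) (isoT F e' hL (c b)) ≤ ℓ * (b - a) :=
      (hfix _ _ haK.2 hbK.2).trans (hself a b hab)
    rw [hc0] at h1
    rw [hc1] at h2
    calc dist (isoT F e' hL x) (isoT F e' hL y)
        ≤ dist (isoT F e' hL x) (isoT F e' hL (c a)) +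
          dist (isoT F e' hL (c a)) (isoT F e' hL (c b)) +
          dist (isoT F e' hL (c b)) (isoT F e' hL y) := dist_triangle4 _ _ _ _
      _ ≤ ℓ * (a - 0) + ℓ * (b - a) + ℓ * (1 - b) := add_le_add (add_le_add h1 h3) h2
      _ = ℓ := by ring
  · push Not at h
    have h1 := hA 0 1 zero_le_one fun t ht => lt_of_le_of_ne (hd _ _) (h t ht)
    rw [hc0, hc1] at h1
    rw [sub_zero, mul_one] at h1
    exact h1

end map

/-- **The isometry.** Two manifolds in the equality case whose metrics in normal coordinates agree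
are isometric. -/
theorem exists_isometry (F : Facts e) (F' : Facts e') {D : ℝ} (hD : 0 < D) (hB : InjGE e D)
    (hB' : InjGE e' D)
    (hd : ∀ x y : M, dist x y ≤ D) (hd' : ∀ x y : M', dist x y ≤ D)
    (hcl : ∀ (x : M) (v : E), nm x v = 2 * D → e x v = x)
    (hcl' : ∀ (x : M') (v : E'), nm x v = 2 * D → e' x v = x)
    {l : ℕ} (hl : ∀ x y : M, dist x y = D → finrank ℝ (H703.Pl e D x y) = l + 1)
    (hl' : ∀ x y : M', dist x y = D → finrank ℝ (H703.Pl e' D x y) = l + 1)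
    {p : M} {p' : M'}
    {σ : M ≃ᵢ M} (hσ : ∀ v : E, σ (e p v) = e p (-v))
    {σ' : M' ≃ᵢ M'} (hσ' : ∀ v : E', σ' (e' p' v) = e' p' (-v))
    (L : E ≃ₗ[ℝ] E') (hL : ∀ v, nm p' (L v) = nm p v)
    (hC : ∀ v v' : E, nm p v = D → nm p v' = D → (e p v = e p v' ↔ e' p' (L v) = e' p' (L v')))
    (hg : ∀ v : E, nm p v < D → ∀ w : E,
      nm (e' p' (L v)) (dE e' p' (L v) (L w)) = nm (e p v) (dE e p v w))
    (hgD : ∀ u : E, nm p u = 1 → ∀ w : E, ip p u w = 0 →
      nm (e' p' (D • L u : E')) (dE e' p' (D • L u) (L w)) =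
        nm (e p (D • u : E)) (dE e p (D • u) w)) :
    ∃ τ : M ≃ᵢ M', ∀ v : E, τ (e p v) = e' p' (L v) := by
  have hL' : ∀ v, nm p (L.symm v) = nm p' v := fun v => by
    rw [← hL, L.apply_symm_apply]
  have hLL : ∀ v w, ip p' (L v) (L w) = ip p v w := by
    intro v w
    have h1 : ∀ (x : M) (a b : E), ip x a b = (nm x (a + b) ^ 2 - nm x a ^ 2 - nm x b ^ 2) / 2 :=
      fun x a b => by
        rw [← ip_self, ← ip_self, ← ip_self]
        simp only [ip_add_left, refl_ip_add_right]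
        rw [refl_ip_comm x b a]
        ring
    have h2 : ∀ (x : M') (a b : E'), ip x a b =
        (nm x (a + b) ^ 2 - nm x a ^ 2 - nm x b ^ 2) / 2 := fun x a b => by
        rw [← ip_self, ← ip_self, ← ip_self]
        simp only [ip_add_left, refl_ip_add_right]
        rw [refl_ip_comm x b a]
        ring
    rw [h1, h2, ← map_add, hL, hL, hL]
  have hC1 : ∀ v v' : TangentSpace 𝓘(ℝ, E) p, ‖v‖ = D → ‖v'‖ = D → e p v = e p v' →
      e' p' (isoLL (L := L.toLinearMap) hL v) = e' p' (isoLL (L := L.toLinearMap) hL v') :=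
    fun v v' hv hv' h => (hC v v' hv hv').1 h
  have hC2 : ∀ v v' : TangentSpace 𝓘(ℝ, E') p', ‖v‖ = D → ‖v'‖ = D → e' p' v = e' p' v' →
      e p (isoLL (L := L.symm.toLinearMap) hL' v) =
        e p (isoLL (L := L.symm.toLinearMap) hL' v') := fun v v' hv hv' h => by
    let a : E' := v
    let b : E' := v'
    have h1 := (hC (L.symm a) (L.symm b) ((hL' a).trans hv) ((hL' b).trans hv')).2 (by
      rw [L.apply_symm_apply, L.apply_symm_apply]
      exact h)
    exact h1
  have hg' : ∀ v : E', nm p' v < D → ∀ w : E',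
      nm (e p (L.symm v)) (dE e p (L.symm v) (L.symm w)) = nm (e' p' v) (dE e' p' v w) := by
    intro v hv w
    have h1 := hg (L.symm v) (by rw [hL']; exact hv) (L.symm w)
    rw [L.apply_symm_apply, L.apply_symm_apply] at h1
    exact h1.symm
  have hgD' : ∀ u : E', nm p' u = 1 → ∀ w : E', ip p' u w = 0 →
      nm (e p (D • L.symm u : E)) (dE e p (D • L.symm u) (L.symm w)) =
        nm (e' p' (D • u : E')) (dE e' p' (D • u) w) := by
    intro u hu w hw
    have h1 := hgD (L.symm u) (by rw [hL']; exact hu) (L.symm w) (by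
      rw [← hLL, L.apply_symm_apply, L.apply_symm_apply]
      exact hw)
    rw [L.apply_symm_apply, L.apply_symm_apply] at h1
    exact h1.symm
  have h1 := isoT_dist_le F F' hD hB hd hd' hcl hcl' hl hσ (L := L.toLinearMap) hL hC1 hg hgD
  have h2 := isoT_dist_le F' F hD hB' hd' hd hcl' hcl hl' hσ' (L := L.symm.toLinearMap) hL' hC2
    hg' hgD'
  set T : M → M' := isoT F e' (L := L.toLinearMap) hL with hT
  set S : M' → M := isoT F' e (L := L.symm.toLinearMap) hL' with hS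
  have hTe : ∀ v : E, T (e p v) = e' p' (L v) := fun v =>
    isoT_exp F F' hD hB hcl hcl' hL hC1 v
  have hSe : ∀ v : E', S (e' p' v) = e p (L.symm v) := fun v =>
    isoT_exp F' F hD hB' hcl' hcl hL' hC2 v
  have hST : ∀ y, S (T y) = y := by
    intro y
    obtain ⟨v, hv⟩ : ∃ v : E, e p v = y := ⟨symmL F p y, symmL_exp F p y⟩
    rw [← hv, hTe, hSe, L.symm_apply_apply]
  have hTS : ∀ y, T (S y) = y := by
    intro y
    obtain ⟨v, hv⟩ : ∃ v : E', e' p' v = y := ⟨symmL F' p' y, symmL_exp F' p' y⟩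
    rw [← hv, hSe, hTe, L.apply_symm_apply]
  refine ⟨IsometryEquiv.mk' T S hTS ?_, fun v => hTe v⟩
  refine Isometry.of_dist_eq fun x y => le_antisymm (h1 x y) ?_
  have h3 := h2 (T x) (T y)
  rwa [hST, hST] at h3

end

end Vale.Agent.P231.H512
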