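import Vale.Agent.P231.H512.Iso1
import Vale.Agent.P231.Bd3.B5

/-! P231: a linear isometry between tangent spaces of two Blaschke manifolds of model volume that
intertwines the projections `P` induces an isometry. -/

set_option maxSynthPendingDepth 3
set_option linter.unusedSectionVars false

open Bundle Manifold Set Filter Module
open scoped ContDiff Manifold Topology

namespace Vale.Agent.P231.H512

noncomputable section

open Vale.Agent.P234 Vale.Agent.P231 Vale.Agent.P231.H703 Vale.Agent.P231.H775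

variable {E : Type*} [NormedAddCommGroup E] [NormedSpace ℝ E] [FiniteDimensional ℝ E]
  {M : Type*} [MetricSpace M] [ChartedSpace E M]
  [RiemannianBundle (fun x : M => TangentSpace 𝓘(ℝ, E) x)]
  [IsManifold 𝓘(ℝ, E) ∞ M]
  [IsContMDiffRiemannianBundle 𝓘(ℝ, E) ∞ E (fun x : M => TangentSpace 𝓘(ℝ, E) x)]
  {e : ∀ x : M, TangentSpace 𝓘(ℝ, E) x → M}

variable {E' : Type*} [NormedAddCommGroup E'] [NormedSpace ℝ E'] [FiniteDimensional ℝ E']
  {M' : Type*} [MetricSpace M'] [ChartedSpace E' M']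
  [RiemannianBundle (fun x : M' => TangentSpace 𝓘(ℝ, E') x)]
  [IsManifold 𝓘(ℝ, E') ∞ M']
  [IsContMDiffRiemannianBundle 𝓘(ℝ, E') ∞ E' (fun x : M' => TangentSpace 𝓘(ℝ, E') x)]
  {e' : ∀ x : M', TangentSpace 𝓘(ℝ, E') x → M'}

variable [CompactSpace M] [ConnectedSpace M] [IsRiemannianManifold 𝓘(ℝ, E) M]
variable [CompactSpace M'] [ConnectedSpace M'] [IsRiemannianManifold 𝓘(ℝ, E') M']

/-- two unit vectors have the same endpoint at distance `D` iff they span the same fibre -/
theorem same_point_iff (F : Facts e) {D : ℝ} (hD : 0 < D)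
    (hcl : ∀ (x : M) (v : E), nm x v = 2 * D → e x v = x) {l : ℕ}
    {P : ∀ _ : M, E → E →ₗ[ℝ] E} (hP : ∀ x, PData e D l x (P x))
    (hσ : ∀ p : M, ∃ σ : M ≃ᵢ M, ∀ v : E, σ (e p v) = e p (-v)) (x : M) {u u' : E}
    (hu : nm x u = 1) (hu' : nm x u' = 1) :
    e x (D • u : E) = e x (D • u' : E) ↔ u' = ip x u u' • u + P x u u' := by
  constructor
  · intro h
    obtain ⟨τ, L, hτ, hLi, hL⟩ := refl_exists F hD hcl hσ x hu
    have h1 := refl_core F hD hcl hP hu rfl (τ := τ) hτ (L := L.toLinearMap) hL hLi u'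
    have h2 := refl_core F hD hcl hP hu' h.symm (τ := τ) hτ (L := L.toLinearMap) hL hLi u'
    have h3 : P x u' u' = 0 := by
      have h4 := (hP x).idem u' u' hu'
      have h5 : ip x (P x u' u') (P x u' u') = 0 := by
        rw [(hP x).symm u' _ _ hu', h4, refl_ip_comm, (hP x).perp u' u' hu']
      exact refl_ip_eq_zero x h5
    rw [h3, add_zero, ip_self, hu', h1] at h2
    have h4 : (2 : ℝ) • (ip x u u' • u + P x u u') = (2 : ℝ) • u' := by
      have h5 := sub_right_inj.1 h2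
      rw [h5]
      norm_num
    exact ((smul_right_injective E (two_ne_zero (α := ℝ))) h4).symm
  · intro h
    exact (refl_same_point F hD hcl (hP x) hu hu' h).symm

/-- the metric in normal coordinates in terms of the projections -/
theorem metric_formula (F : Facts e) {D : ℝ} {l : ℕ} {x : M} {P : E → E →ₗ[ℝ] E}
    (hP : PData e D l x P) {u : E} (hu : nm x u = 1) {r : ℝ} (hr : r ∈ Ioo 0 D) (w : E) :
    nm (e x (r • u : E)) (dE e x (r • u) w) ^ 2 = ip x u w ^ 2 +
      (Real.sin (Real.pi * r / (2 * D)) / (Real.pi * r / (2 * D))) ^ 2 *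
        (nm x (w - ip x u w • u) ^ 2 - Real.sin (Real.pi * r / (2 * D)) ^ 2 *
          nm x (P u (w - ip x u w • u)) ^ 2) := by
  set a := ip x u w with ha
  set w' : E := w - a • u with hw'
  have hw'u : ip x u w' = 0 := by
    rw [hw', sph_ip_sub_right, sph_ip_smul_right, ip_self, hu, ← ha]
    ring
  have hw : w = a • u + w' := by rw [hw']; abel
  have h1 := sph_split F x u hu hr.1 a w' (by rw [sph_ip_comm, hw'u])
  rw [← hw] at h1
  have h2 := hP.gram u w' hu hw'u r hr
  have h4 : gam e x u r = e x (r • u : E) := rfl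
  rw [h4] at h1
  rw [h1, h2]

theorem dE_zero_nm (F : Facts e) (x : M) (w : E) :
    nm (e x (0 : E)) (dE e x 0 w) = nm x w := by
  have h0 : e x (0 : E) = x := F.isExp.map_zero x
  rw [dE_zero_base F.isExp]
  have h2 : ∀ y : M, y = x → nm y w = nm x w := by
    rintro y rfl
    rfl
  exact h2 _ h0

/-- the squared length of `d(exp_x)_{r u} w` as a function of `r` -/
theorem continuous_sq (F : Facts e) (x : M) (u w : E) :
    Continuous fun r : ℝ => nm (e x (r • u : E)) (dE e x (r • u) w) ^ 2 := by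
  have h1 := (taylor_ip_smooth F.isExp x w w).continuous
  have h2 : Continuous fun r : ℝ => (r • u : TangentSpace 𝓘(ℝ, E) x) :=
    continuous_id.smul continuous_const
  have h3 := h1.comp h2
  have h4 : (fun r : ℝ => nm (e x (r • u : E)) (dE e x (r • u) w) ^ 2) =
      (fun v : TangentSpace 𝓘(ℝ, E) x =>
        ip (E := E) (e x v) (dE (E := E) e x v w) (dE (E := E) e x v w)) ∘
        fun r : ℝ => (r • u : TangentSpace 𝓘(ℝ, E) x) := by
    funext r
    exact (ip_self _ _).symm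
  rw [h4]
  exact h3

theorem iso_of_PData (F : Facts e) (F' : Facts e') {D : ℝ} (hD : 0 < D) (hB : InjGE e D)
    (hB' : InjGE e' D)
    (hd : ∀ x y : M, dist x y ≤ D) (hd' : ∀ x y : M', dist x y ≤ D)
    (hcl : ∀ (x : M) (v : E), nm x v = 2 * D → e x v = x)
    (hcl' : ∀ (x : M') (v : E'), nm x v = 2 * D → e' x v = x)
    {l : ℕ} (hl : ∀ x y : M, dist x y = D → finrank ℝ (H703.Pl e D x y) = l + 1)
    (hl' : ∀ x y : M', dist x y = D → finrank ℝ (H703.Pl e' D x y) = l + 1)
    {P : ∀ _ : M, E → E →ₗ[ℝ] E} (hP : ∀ x, PData e D l x (P x))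
    {P' : ∀ _ : M', E' → E' →ₗ[ℝ] E'} (hP' : ∀ x, PData e' D l x (P' x))
    (hσ : ∀ p : M, ∃ σ : M ≃ᵢ M, ∀ v : E, σ (e p v) = e p (-v))
    (hσ' : ∀ p : M', ∃ σ : M' ≃ᵢ M', ∀ v : E', σ (e' p v) = e' p (-v))
    {p : M} {p' : M'} (L : E ≃ₗ[ℝ] E') (hL : ∀ v w, ip p' (L v) (L w) = ip p v w)
    (hLP : ∀ u w, nm p u = 1 → P' p' (L u) (L w) = L (P p u w)) :
    ∃ τ : M ≃ᵢ M', ∀ v : E, τ (e p v) = e' p' (L v) := by
  have hLn : ∀ v, nm p' (L v) = nm p v := by
    intro v
    have h1 : nm p' (L v) ^ 2 = nm p v ^ 2 := by rw [← ip_self, ← ip_self, hL]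
    exact (sq_eq_sq₀ (nm_nonneg _ _) (nm_nonneg _ _)).1 h1
  obtain ⟨σ, hσp⟩ := hσ p
  obtain ⟨σ', hσp'⟩ := hσ' p'
  -- the squared lengths agree for unit `u` and `0 < r < D`
  have hsq : ∀ u : E, nm p u = 1 → ∀ r ∈ Ioo 0 D, ∀ w : E,
      nm (e' p' (r • L u : E')) (dE e' p' (r • L u) (L w)) ^ 2 =
        nm (e p (r • u : E)) (dE e p (r • u) w) ^ 2 := by
    intro u hu r hr w
    rw [metric_formula F (hP p) hu hr w, metric_formula F' (hP' p') ((hLn u).trans hu) hr (L w),
      hL]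
    have h1 : L w - ip p u w • L u = L (w - ip p u w • u) := by
      rw [map_sub, map_smul]
    rw [h1, hLn, hLP u _ hu, hLn]
  refine exists_isometry F F' hD hB hB' hd hd' hcl hcl' hl hl' hσp hσp' L hLn ?_ ?_ ?_
  · intro v v' hv hv'
    have hD' := hD.ne'
    have h1 : ∀ a : E, a = D • (D⁻¹ • a) := fun a => by
      rw [smul_smul, mul_inv_cancel₀ hD', one_smul]
    have h1' : ∀ a : E', a = D • (D⁻¹ • a) := fun a => by
      rw [smul_smul, mul_inv_cancel₀ hD', one_smul]
    have h2 : ∀ a : E, nm p a = D → nm p (D⁻¹ • a) = 1 := fun a ha => by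
      rw [nm_smul, ha, abs_of_pos (inv_pos.2 hD), inv_mul_cancel₀ hD']
    have h3 := same_point_iff F hD hcl hP hσ p (h2 v hv) (h2 v' hv')
    rw [← h1, ← h1] at h3
    have h4 := same_point_iff F' hD hcl' hP' hσ' p' (u := L (D⁻¹ • v)) (u' := L (D⁻¹ • v'))
      ((hLn _).trans (h2 v hv)) ((hLn _).trans (h2 v' hv'))
    rw [← map_smul, ← map_smul, ← h1, ← h1, hL, hLP _ _ (h2 v hv), ← map_smul, ← map_add,
      L.injective.eq_iff] at h4
    rw [h3, h4]
  · intro v hv w
    rcases eq_or_ne v 0 with h0 | h0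
    · subst h0
      rw [dE_zero_nm F]
      have h1 : ∀ a : E', a = 0 → nm (e' p' a) (dE e' p' a (L w)) = nm p' (L w) := by
        rintro a rfl
        exact dE_zero_nm F' p' (L w)
      rw [h1 _ (map_zero L), hLn]
    · have hv0 : 0 < nm p v := by
        refine lt_of_le_of_ne (nm_nonneg _ _) (fun h => h0 ?_)
        exact refl_ip_eq_zero p (by rw [ip_self, ← h]; norm_num)
      have h1 : v = nm p v • ((nm p v)⁻¹ • v) := by
        rw [smul_smul, mul_inv_cancel₀ hv0.ne', one_smul]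
      have h2 : nm p ((nm p v)⁻¹ • v) = 1 := by
        rw [nm_smul, abs_of_pos (inv_pos.2 hv0), inv_mul_cancel₀ hv0.ne']
      have h3 := hsq _ h2 (nm p v) ⟨hv0, hv⟩ w
      rw [← map_smul, ← h1] at h3
      exact (sq_eq_sq₀ (nm_nonneg _ _) (nm_nonneg _ _)).1 h3
  · intro u hu w _
    have h1 := (continuous_sq F p u w).tendsto D
    have h2 := (continuous_sq F' p' (L u) (L w)).tendsto D
    have h3 := h1.mono_left (nhdsWithin_le_nhds (s := Iio D))
    have h4 := h2.mono_left (nhdsWithin_le_nhds (s := Iio D))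
    have h5 : (fun r : ℝ => nm (e' p' (r • L u : E')) (dE e' p' (r • L u) (L w)) ^ 2)
        =ᶠ[𝓝[<] D] fun r : ℝ => nm (e p (r • u : E)) (dE e p (r • u) w) ^ 2 := by
      filter_upwards [Ioo_mem_nhdsLT hD] with r hr
      exact hsq u hu r hr w
    have h6 := tendsto_nhds_unique (h4.congr' h5) h3
    exact (sq_eq_sq₀ (nm_nonneg _ _) (nm_nonneg _ _)).1 h6

end

end Vale.Agent.P231.H512
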