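import Vale.Agent.P231.H512.Iso2
import Vale.Agent.P231.H512.Conj
import Vale.Agent.P231.L.Top

/-! P231: two Blaschke manifolds of model volume, of cut multiplicity one, of the same dimension
and the same diameter are isometric. -/

set_option maxSynthPendingDepth 3
set_option linter.unusedSectionVars false

open Bundle Manifold Set Filter Module
open scoped ContDiff Manifold Topology ENNReal

namespace Vale.Agent.P231.H512

noncomputable section

open Vale.Agent.P234 Vale.Agent.P231 Vale.Agent.P231.H703 Vale.Agent.P231.H775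

variable {E : Type*} [NormedAddCommGroup E] [NormedSpace ℝ E] [FiniteDimensional ℝ E]
  {M : Type*} [MetricSpace M] [ChartedSpace E M]
  [RiemannianBundle (fun x : M => TangentSpace 𝓘(ℝ, E) x)]
  [IsManifold 𝓘(ℝ, E) ∞ M]
  [IsContMDiffRiemannianBundle 𝓘(ℝ, E) ∞ E (fun x : M => TangentSpace 𝓘(ℝ, E) x)]
  {e : ∀ x : M, TangentSpace 𝓘(ℝ, E) x → M}

variable {E' : Type*} [NormedAddCommGroup E'] [NormedSpace ℝ E'] [FiniteDimensional ℝ E']
  {M' : Type*} [MetricSpace M'] [ChartedSpace E' M']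
  [RiemannianBundle (fun x : M' => TangentSpace 𝓘(ℝ, E') x)]
  [IsManifold 𝓘(ℝ, E') ∞ M']
  [IsContMDiffRiemannianBundle 𝓘(ℝ, E') ∞ E' (fun x : M' => TangentSpace 𝓘(ℝ, E') x)]
  {e' : ∀ x : M', TangentSpace 𝓘(ℝ, E') x → M'}

variable [CompactSpace M] [ConnectedSpace M] [IsRiemannianManifold 𝓘(ℝ, E) M]
variable [CompactSpace M'] [ConnectedSpace M'] [IsRiemannianManifold 𝓘(ℝ, E') M']

/-- the rigid structure of a Blaschke manifold of model volume -/
structure Rig (e : ∀ x : M, TangentSpace 𝓘(ℝ, E) x → M) (D : ℝ) (l : ℕ) : Prop where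
  facts : Facts e
  pos : 0 < D
  inj : InjGE e D
  diam : ∀ x y : M, dist x y ≤ D
  closed : ∀ (x : M) (v : E), nm x v = 2 * D → e x v = x
  pl : ∀ x y : M, dist x y = D → finrank ℝ (H703.Pl e D x y) = l + 1
  symm : ∀ p : M, ∃ σ : M ≃ᵢ M, ∀ v : E, σ (e p v) = e p (-v)
  proj : ∃ P : ∀ _ : M, E → E →ₗ[ℝ] E, ∀ x, PData e D l x (P x)

theorem rig_of_volume [MeasurableSpace M] [BorelSpace M] (he : IsExp e)
    (hinj : Blaschke.InjGeDiam e) {N : ℕ} (hN : finrank ℝ E = N + 1) {l : ℕ}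
    (hl : IsLeast {k | Blaschke.MultLE e k} l)
    (hV : Blaschke.riemannianVolume (N + 1) M univ ≤
      ENNReal.ofReal (Blaschke.modelVolume N l (Metric.diam (univ : Set M)))) :
    Rig e (Metric.diam (univ : Set M)) l := by
  have F : Facts e := facts_of_isExp he
  obtain ⟨x₀⟩ : Nonempty M := inferInstance
  have hD : 0 < Metric.diam (univ : Set M) := diam_pos he hN x₀
  have hB : InjGE e (Metric.diam (univ : Set M)) := injGE_of_injOn F hD hinj
  have hd : ∀ x y : M, dist x y ≤ Metric.diam (univ : Set M) := fun x y =>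
    Metric.dist_le_diam_of_mem (isCompact_univ.isBounded) (mem_univ x) (mem_univ y)
  have hcl : ∀ (x : M) (v : E), nm x v = 2 * Metric.diam (univ : Set M) → e x v = x :=
    fun x v hv => closed_of_inj_diam F hD hB hd x v hv
  have hl' : ∀ (x : M) (v : E), nm x v = Metric.diam (univ : Set M) →
      finrank ℝ (LinearMap.ker (dEl e x v)) ≤ l :=
    fun x v hv => finrank_le_of_mult he hl.1 x v hv
  have e2 : riemVol (finrank ℝ E) M = Blaschke.riemannianVolume (N + 1) M := by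
    rw [hN, riemVol_eq]
  obtain ⟨h1, h2, h3⟩ := mult_of_isLeast he F hD hB hd rfl hN hl
  rw [← mvol_eq, ← e2] at hV
  have hj := vol_rigid F hD hB hcl hN hl' hV
  choose P hP using exists_PData F hD hB hcl hN hl' hj
  exact ⟨F, hD, hB, hd, hcl, h3,
    exists_symmetry F hD hB hd hcl (geo_rigid F hD hB hcl hN hl' hj), P, hP⟩

/-- the complex structure in orthonormal coordinates -/
theorem exists_OCS_PData (F : Facts e) {D : ℝ} (hD : 0 < D) {x : M} {P : E → E →ₗ[ℝ] E}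
    (hP : PData e D 1 x P) : ∃ J : Eu E →ₗ[ℝ] Eu E, OCS J ∧
      ∀ u w : Eu E, ‖u‖ = 1 → P (fr x u) (fr x w) = fr x ((inner ℝ (J u) w : ℝ) • J u) := by
  obtain ⟨B, hB⟩ := exists_form F hD hP
  obtain ⟨J, hJ, h1⟩ := exists_OCS hB fun u hu => hP.sph_rank hu
  refine ⟨J, hJ, fun u w hu => ?_⟩
  rw [← sph_fr_trP, h1 u w hu]

theorem isometric_of_rig {D : ℝ} (R : Rig e D 1) (R' : Rig e' D 1)
    (hdim : finrank ℝ E = finrank ℝ E') (p : M) (p' : M') : ∃ τ : M ≃ᵢ M', τ p = p' := by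
  obtain ⟨P, hP⟩ := R.proj
  obtain ⟨P', hP'⟩ := R'.proj
  obtain ⟨J, hJ, h1⟩ := exists_OCS_PData R.facts R.pos (hP p)
  obtain ⟨J', hJ', h1'⟩ := exists_OCS_PData R'.facts R'.pos (hP' p')
  obtain ⟨T, hT, hTJ⟩ := exists_conj hJ hJ' (by
    rw [finrank_euclideanSpace_fin, finrank_euclideanSpace_fin, hdim])
  let L : E ≃ₗ[ℝ] E' :=
    ((fr p : Eu E ≃L[ℝ] E).symm.toLinearEquiv.trans T).trans (fr p' : Eu E' ≃L[ℝ] E').toLinearEquiv
  have hLf : ∀ a : Eu E, L (fr p a) = fr p' (T a) := fun a => by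
    show fr p' (T ((fr p).symm (fr p a))) = _
    rw [(fr p).symm_apply_apply]
  have hfs : ∀ v : E, fr p ((fr p).symm v) = v := fun v => (fr p).apply_symm_apply v
  have hTn : ∀ a, ‖T a‖ = ‖a‖ := fun a => by
    have h2 := hT a a
    rw [real_inner_self_eq_norm_sq, real_inner_self_eq_norm_sq] at h2
    exact (sq_eq_sq₀ (norm_nonneg _) (norm_nonneg _)).1 h2
  obtain ⟨τ, hτ⟩ := iso_of_PData R.facts R'.facts R.pos R.inj R'.inj R.diam R'.diam R.closed
    R'.closed R.pl R'.pl hP hP' R.symm R'.symm (p := p) (p' := p') L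
    (fun v w => by
      rw [← hfs v, ← hfs w, hLf, hLf, ip_fr, ip_fr, hT])
    (fun u w hu => by
      rw [← hfs u, ← hfs w, hLf, hLf]
      have h2 : ‖(fr p).symm u‖ = 1 := by rw [← nm_fr p, hfs, hu]
      rw [h1 _ _ h2, h1' _ _ ((hTn _).trans h2), hLf, ← hTJ, hT, map_smul T])
  refine ⟨τ, ?_⟩
  have h2 := hτ 0
  rw [map_zero] at h2
  have h3 : e p (0 : E) = p := R.facts.isExp.map_zero p
  have h4 : e' p' (0 : E') = p' := R'.facts.isExp.map_zero p'
  rw [h3, h4] at h2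
  exact h2

end

end Vale.Agent.P231.H512
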