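import Vale.Agent.P231.H512.FS8
import Vale.Agent.P231.L.Full

/-! P231: a Blaschke manifold with cut multiplicity one is isometric to the complex projective
space; uniqueness. -/

set_option maxSynthPendingDepth 3
set_option linter.unusedSectionVars false

open Bundle Manifold Set Filter Module
open scoped ContDiff Manifold Topology ENNReal

namespace Vale.Agent.P231.H512

noncomputable section

open Vale.Agent.P234 Vale.Agent.P231 Vale.Agent.P231.H703 Vale.Agent.P231.H775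

variable {E : Type*} [NormedAddCommGroup E] [NormedSpace ℝ E] [FiniteDimensional ℝ E]
  {M : Type*} [MetricSpace M] [ChartedSpace E M]
  [RiemannianBundle (fun x : M => TangentSpace 𝓘(ℝ, E) x)]
  [IsManifold 𝓘(ℝ, E) ∞ M]
  [IsContMDiffRiemannianBundle 𝓘(ℝ, E) ∞ E (fun x : M => TangentSpace 𝓘(ℝ, E) x)]
  {e : ∀ x : M, TangentSpace 𝓘(ℝ, E) x → M}
  [CompactSpace M] [ConnectedSpace M] [IsRiemannianManifold 𝓘(ℝ, E) M]

theorem rig_one (he : IsExp e) (hinj : Blaschke.InjGeDiam e) (hN3 : 3 ≤ finrank ℝ E)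
    (hl : IsLeast {k | Blaschke.MultLE e k} 1) : Rig e (Metric.diam (univ : Set M)) 1 := by
  borelize M
  obtain ⟨N, hN⟩ : ∃ N, finrank ℝ E = N + 1 := ⟨finrank ℝ E - 1, by omega⟩
  have F : Facts e := facts_of_isExp he
  obtain ⟨x₀⟩ : Nonempty M := inferInstance
  have hD : 0 < Metric.diam (univ : Set M) := diam_pos he hN x₀
  have hB : InjGE e (Metric.diam (univ : Set M)) := injGE_of_injOn F hD hinj
  have hd : ∀ x y : M, dist x y ≤ Metric.diam (univ : Set M) := fun x y =>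
    Metric.dist_le_diam_of_mem (isCompact_univ.isBounded) (mem_univ x) (mem_univ y)
  obtain ⟨-, h2, h3⟩ := mult_of_isLeast he F hD hB hd rfl hN hl
  exact rig_of_volume he hinj hN hl (L.volume_le F hD hB hd hN hN3 h2 h3)

/-- **A Blaschke manifold with cut multiplicity one is isometric to the complex projective
space.** -/
theorem main_fs (he : IsExp e) (hinj : Blaschke.InjGeDiam e) (hN3 : 3 ≤ finrank ℝ E)
    (hl : IsLeast {k | Blaschke.MultLE e k} 1) :
    ∃ n : ℕ, 2 * n = finrank ℝ E ∧ ∃ Z : M → EuclideanSpace ℂ (Fin (n + 1)),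
      (∀ x, ‖Z x‖ = 1) ∧
      (∀ x y, dist x y = 2 * Metric.diam (univ : Set M) / Real.pi *
        Real.arccos ‖(inner ℂ (Z x) (Z y) : ℂ)‖) ∧
      ∀ z, ‖z‖ = 1 → ∃ x, ‖(inner ℂ (Z x) z : ℂ)‖ = 1 := by
  obtain ⟨p⟩ : Nonempty M := inferInstance
  exact FS.isometric_of_rig (rig_one he hinj hN3 hl) p

/-- elementary form -/
theorem main_fs' (he : IsExp e) (hinj : Blaschke.InjGeDiam e) (hN3 : 3 ≤ finrank ℝ E)
    (hl : IsLeast {k | Blaschke.MultLE e k} 1) :
    ∃ n : ℕ, 2 * n = finrank ℝ E ∧ ∃ Z : M → Fin (n + 1) → ℂ,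
      (∀ x, ∑ i, ‖Z x i‖ ^ 2 = 1) ∧
      (∀ x y, dist x y = 2 * Metric.diam (univ : Set M) / Real.pi *
        Real.arccos ‖∑ i, starRingEnd ℂ (Z x i) * Z y i‖) ∧
      ∀ z : Fin (n + 1) → ℂ, ∑ i, ‖z i‖ ^ 2 = 1 →
        ∃ x, ‖∑ i, starRingEnd ℂ (Z x i) * z i‖ = 1 := by
  obtain ⟨n, hn, Z, h1, h2, h3⟩ := main_fs he hinj hN3 hl
  have hin : ∀ z w : EuclideanSpace ℂ (Fin (n + 1)),
      (inner ℂ z w : ℂ) = ∑ i, starRingEnd ℂ (z i) * w i := fun z w => by
    rw [PiLp.inner_apply]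
    refine Finset.sum_congr rfl fun i _ => ?_
    rw [RCLike.inner_apply, mul_comm]
  refine ⟨n, hn, fun x i => Z x i, fun x => ?_, fun x y => ?_, fun z hz => ?_⟩
  · have h4 := EuclideanSpace.norm_sq_eq (Z x)
    rw [h1 x, one_pow] at h4
    exact h4.symm
  · rw [h2 x y, hin]
  · have h4 : ‖(WithLp.toLp 2 z : EuclideanSpace ℂ (Fin (n + 1)))‖ = 1 := by
      have h5 := EuclideanSpace.norm_sq_eq (WithLp.toLp 2 z : EuclideanSpace ℂ (Fin (n + 1)))
      have h6 : ‖(WithLp.toLp 2 z : EuclideanSpace ℂ (Fin (n + 1)))‖ ^ 2 = 1 := h5.trans hz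
      exact (pow_eq_one_iff_of_nonneg (norm_nonneg _) two_ne_zero).1 h6
    obtain ⟨x, hx⟩ := h3 _ h4
    refine ⟨x, ?_⟩
    rw [hin] at hx
    exact hx

end

end Vale.Agent.P231.H512
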